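import Vale.Agent.P057.H562.Gen

set_option linter.all false

section

open Finset Polynomial

namespace Vale.Agent.P057.H562

open Vale.Agent.P057.Lower

theorem diff_mul (M : ℤ) (v : ℕ → ℤ) (n : ℕ) : ∀ j,
    (fwdDiff 1)^[n] (fun i => M * v i) j = M * (fwdDiff 1)^[n] v j := by
  induction n with
  | zero => intro j; rfl
  | succ n ih =>
    intro j
    rw [fwdDiff_succ_apply, fwdDiff_succ_apply, ih, ih]
    ring

theorem diff_shift (N : ℕ) (u : ℕ → ℤ) (n : ℕ) : ∀ j,
    (fwdDiff 1)^[n] (fun i => u (i + N) - u i) j =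
      (fwdDiff 1)^[n] u (j + N) - (fwdDiff 1)^[n] u j := by
  induction n with
  | zero => intro j; rfl
  | succ n ih =>
    intro j
    rw [fwdDiff_succ_apply, fwdDiff_succ_apply n u, fwdDiff_succ_apply n u, ih, ih]
    have e : j + 1 + N = j + N + 1 := by omega
    rw [e]
    ring

/-- a real polynomial of degree at most `m` has no `m + 1` changes of sign -/
theorem no_alternate (R : ℝ[X]) (m N j1 : ℕ) (hj1 : j1 < N) (hdeg : R.natDegree ≤ m)
    (hpos : ∀ s ≤ m, 0 < R.eval ((N : ℝ) * s)) (hneg : ∀ s ≤ m, R.eval ((j1 : ℝ) + N * s) < 0) :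
    False := by
  have hroot : ∀ s : Fin (m + 1), ∃ x : ℝ, (N : ℝ) * (s : ℕ) ≤ x ∧ x ≤ j1 + N * (s : ℕ) ∧
      R.eval x = 0 := by
    intro s
    have hs : (s : ℕ) ≤ m := Nat.lt_succ_iff.1 s.2
    have hle : (N : ℝ) * (s : ℕ) ≤ j1 + N * (s : ℕ) := by
      have : (0 : ℝ) ≤ j1 := Nat.cast_nonneg _
      linarith only [this]
    have hIVT := intermediate_value_Icc' hle (f := fun x => R.eval x)
      R.continuous.continuousOn
    have h0 : (0 : ℝ) ∈ Set.Icc (R.eval ((j1 : ℝ) + N * (s : ℕ))) (R.eval ((N : ℝ) * (s : ℕ))) :=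
      ⟨(hneg s hs).le, (hpos s hs).le⟩
    obtain ⟨x, hx, hx0⟩ := hIVT h0
    exact ⟨x, hx.1, hx.2, hx0⟩
  choose x hx1 hx2 hx0 using hroot
  have hlt : ∀ s s' : Fin (m + 1), s < s' → x s < x s' := by
    intro s s' h
    have h1 : ((s : ℕ) : ℝ) + 1 ≤ ((s' : ℕ) : ℝ) := by
      have : (s : ℕ) + 1 ≤ (s' : ℕ) := h
      exact_mod_cast this
    have h2 : (j1 : ℝ) < N := by exact_mod_cast hj1
    have h3 := hx2 s
    have h4 := hx1 s'
    have h5 : (N : ℝ) * ((s : ℕ) + 1) ≤ N * (s' : ℕ) :=
      mul_le_mul_of_nonneg_left h1 (Nat.cast_nonneg _)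
    linarith only [h2, h3, h4, h5]
  have hinj : Function.Injective x := by
    intro s s' h
    rcases lt_trichotomy s s' with h1 | h1 | h1
    · have := hlt s s' h1
      linarith only [this, h]
    · exact h1
    · have := hlt s' s h1
      linarith only [this, h]
  have hR : R = 0 := by
    apply Polynomial.eq_of_natDegree_lt_card_of_eval_eq (f := x) _ _ hinj
    · intro s
      rw [hx0 s, eval_zero]
    · rw [natDegree_zero, Fintype.card_fin]
      omega
  have := hpos 0 (Nat.zero_le _)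
  rw [hR, eval_zero] at this
  exact lt_irrefl _ this

/-- the modulus used for the residues -/
def modu (N D : ℕ) : ℕ := 2 ^ (D + 2) * (den N (D + 1)).natAbs

theorem modu_ge (N D : ℕ) (hN : 0 < N) : 2 ^ (D + 2) ≤ modu N D := by
  unfold modu
  have h1 : 1 ≤ (den N (D + 1)).natAbs := Int.natAbs_pos.2 (den_ne_zero N (D + 1) hN)
  exact Nat.le_mul_of_pos_right _ h1

theorem den_dvd (N D : ℕ) : den N (D + 1) ∣ ((modu N D : ℕ) : ℤ) := by
  unfold modu
  push_cast
  exact dvd_mul_of_dvd_right ((dvd_abs _ _).2 dvd_rfl) _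

/-- a congruential progression that is periodic modulo the modulus is genuine -/
theorem periodic_genuine (N D k p h : ℕ) (hN : 2 ≤ N) (hp : 0 < p)
    (hpN : IsCoprime (p : ℤ) ((modu N D : ℕ) : ℤ)) (hh : 4 * h < p) (hk : N * (D + 5) ≤ k)
    (u : ℕ → ℤ) (hu : ∀ j < k, |u j| ≤ h)
    (hd : ∀ j, j + (D + 1) < k → (p : ℤ) ∣ (fwdDiff 1)^[D + 1] u j)
    (hper : ∀ j, j + N < k → ((modu N D : ℕ) : ℤ) ∣ u (j + N) - u j) :
    ∀ j, j + (D + 1) < k → (fwdDiff 1)^[D + 1] u j = 0 := by
  have hden := den_dvd N D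
  have hM2 : (2 : ℤ) ^ (D + 2) ≤ ((modu N D : ℕ) : ℤ) := by
    exact_mod_cast modu_ge N D (by omega)
  have hNk : ∀ s, s ≤ D + 3 → N * s + N < k := by
    intro s hs
    have h1 : N * s ≤ N * (D + 3) := Nat.mul_le_mul_left _ hs
    have h2 : N * (D + 5) = N * (D + 3) + N + N := by ring
    omega
  have hNQ : (N : ℚ) ≠ 0 := by
    have : N ≠ 0 := by omega
    exact_mod_cast this
  generalize hMdef : ((modu N D : ℕ) : ℤ) = M at hpN hper hden hM2
  have hMpos : 0 < M := lt_of_lt_of_le (by positivity) hM2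
  have hhN : (0 : ℤ) ≤ h := by positivity
  have hpZ : (4 : ℤ) * h < p := by exact_mod_cast hh
  -- the quotient sequence
  set g : ℕ → ℤ := fun j => (u (j + N) - u j) / M with hg'
  have hg : ∀ j, j + N < k → M * g j = u (j + N) - u j := fun j hj =>
    Int.mul_ediv_cancel' (hper j hj)
  have hΔg : ∀ j, j + (D + 1) < k - N → (fwdDiff 1)^[D + 1] g j = 0 := by
    intro j hj
    have e : M * (fwdDiff 1)^[D + 1] g j = (fwdDiff 1)^[D + 1] (fun i => u (i + N) - u i) j := by
      rw [← diff_mul]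
      apply diff_congr
      intro i _ hi'
      exact hg i (by omega)
    have d1 : (p : ℤ) ∣ M * (fwdDiff 1)^[D + 1] g j := by
      rw [e, diff_shift]
      exact dvd_sub (hd _ (by omega)) (hd _ (by omega))
    have d2 := hpN.dvd_of_dvd_mul_left d1
    have b : |(fwdDiff 1)^[D + 1] (fun i => u (i + N) - u i) j| ≤ 2 ^ (D + 1) * (2 * h) := by
      apply abs_diff_le
      intro i _ hi
      have h1 := hu (i + N) (by omega)
      have h2 := hu i (by omega)
      have h3 := abs_sub (u (i + N)) (u i)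
      linarith only [h1, h2, h3]
    rw [← e, abs_mul, abs_of_pos hMpos] at b
    have b2 : M * |(fwdDiff 1)^[D + 1] g j| ≤ M * h := by
      have h1 : (2 : ℤ) ^ (D + 1) * (2 * h) = 2 ^ (D + 2) * h := by ring
      rw [h1] at b
      exact b.trans (mul_le_mul_of_nonneg_right hM2 hhN)
    have b3 := le_of_mul_le_mul_left b2 hMpos
    exact Int.eq_zero_of_abs_lt_dvd d2 (by linarith only [b3, hpZ, hhN])
  obtain ⟨Pg, hPg, hPge⟩ := exists_poly D (k - N) g hΔg
  -- the sequence along the multiples of `N`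
  set a : ℕ → ℤ := fun s => u (N * s) with ha
  have haΔ : ∀ s, s ≤ D + 3 → a (s + 1) - a s = M * g (N * s) := by
    intro s hs
    rw [hg (N * s) (hNk s hs)]
    show u (N * (s + 1)) - u (N * s) = _
    rw [Nat.mul_add, mul_one]
  have hΔa : (fwdDiff 1)^[D + 1 + 1] a 0 = 0 := by
    rw [Function.iterate_succ_apply]
    have e : (fwdDiff 1)^[D + 1] (fwdDiff 1 a) 0 =
        (fwdDiff 1)^[D + 1] (fun s => M * g (N * s)) 0 := by
      apply diff_congr
      intro i _ hi
      exact haΔ i (by omega)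
    rw [e, diff_mul M (fun s => g (N * s))]
    have h1 := diff_poly_succ (Pg.comp (C (N : ℚ) * X)) D (D + 2) (by
      refine natDegree_comp_le.trans ?_
      calc Pg.natDegree * (C (N : ℚ) * X).natDegree ≤ D * 1 :=
            Nat.mul_le_mul hPg ((natDegree_C_mul_le _ _).trans natDegree_X_le)
        _ = D := mul_one _) (fun s => g (N * s)) (by
      intro s hs
      rw [eval_comp, eval_mul, eval_C, eval_X]
      have h2 := hPge (N * s) (by have := hNk s (by omega); omega)
      push_cast at h2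
      exact h2) 0 (by omega)
    rw [h1, mul_zero]
  obtain ⟨H, hH, hHe⟩ := exists_poly (D + 1) (D + 3) a (by
    intro j hj
    have : j = 0 := by omega
    rw [this]
    exact hΔa)
  set G : ℚ[X] := H.comp (C ((N : ℚ)⁻¹) * X) with hG
  have hGdeg : G.natDegree ≤ D + 1 := by
    refine natDegree_comp_le.trans ?_
    calc H.natDegree * (C ((N : ℚ)⁻¹) * X).natDegree ≤ (D + 1) * 1 :=
          Nat.mul_le_mul hH ((natDegree_C_mul_le _ _).trans natDegree_X_le)
      _ = D + 1 := mul_one _
  have hGN : ∀ s, s ≤ D + 2 → G.eval ((N : ℚ) * s) = (u (N * s) : ℚ) := by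
    intro s hs
    rw [hG, eval_comp, eval_mul, eval_C, eval_X, ← mul_assoc, inv_mul_cancel₀ hNQ, one_mul]
    exact hHe s (by omega)
  have hGid : G.comp (X + C (N : ℚ)) - G = C (M : ℚ) * Pg := by
    apply Polynomial.eq_of_natDegree_lt_card_of_eval_eq
      (f := fun s : Fin (D + 2) => (N : ℚ) * ((s : ℕ) : ℚ))
    · intro s s' hss
      have h1 : (N : ℚ) * ((s : ℕ) : ℚ) = N * ((s' : ℕ) : ℚ) := hss
      have h2 := mul_left_cancel₀ hNQ h1
      exact Fin.ext (by exact_mod_cast h2)
    · intro s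
      have hs := s.2
      rw [eval_sub, eval_comp, eval_add, eval_X, eval_C, eval_mul, eval_C]
      have e1 : (N : ℚ) * ((s : ℕ) : ℚ) + N = N * (((s : ℕ) + 1 : ℕ) : ℚ) := by
        push_cast
        ring
      rw [e1, hGN _ (by omega), hGN _ (by omega)]
      have h1 := haΔ s (by omega)
      have h2 := hPge (N * (s : ℕ)) (by have := hNk (s : ℕ) (by omega); omega)
      push_cast at h2
      rw [h2]
      have h3 : ((a ((s : ℕ) + 1) - a (s : ℕ) : ℤ) : ℚ) = ((M * g (N * (s : ℕ)) : ℤ) : ℚ) := by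
        rw [h1]
      push_cast at h3
      exact h3
    · rw [Fintype.card_fin]
      apply max_lt
      · refine lt_of_le_of_lt (natDegree_sub_le _ _) (max_lt ?_ (by omega))
        refine lt_of_le_of_lt natDegree_comp_le ?_
        calc G.natDegree * (X + C (N : ℚ)).natDegree ≤ (D + 1) * 1 := by
              apply Nat.mul_le_mul hGdeg
              rw [natDegree_X_add_C]
          _ < D + 2 := by omega
      · refine lt_of_le_of_lt (natDegree_C_mul_le _ _) ?_
        omega
  have hGper : ∀ j, j + N < k → G.eval (((j + N : ℕ)) : ℚ) - G.eval (j : ℚ) =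
      (u (j + N) : ℚ) - (u j : ℚ) := by
    intro j hj
    have h1 := congrArg (Polynomial.eval (j : ℚ)) hGid
    rw [eval_sub, eval_comp, eval_add, eval_X, eval_C, eval_mul, eval_C,
      hPge j (by omega)] at h1
    push_cast
    rw [h1]
    have h2 : ((M * g j : ℤ) : ℚ) = ((u (j + N) - u j : ℤ) : ℚ) := by rw [hg j hj]
    push_cast at h2
    exact h2
  -- divisibility along the multiples of `N`
  have hMu : ∀ s, s ≤ D + 2 → M ∣ u (N * s) - u 0 := by
    intro s
    induction s with
    | zero =>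
      intro _
      rw [Nat.mul_zero, sub_self]
      exact dvd_zero _
    | succ s ih =>
      intro hs
      have h1 := ih (by omega)
      have h2 := hper (N * s) (hNk s (by omega))
      have h3 := dvd_add h2 h1
      have e : u (N * s + N) - u (N * s) + (u (N * s) - u 0) = u (N * (s + 1)) - u 0 := by
        rw [Nat.mul_add, mul_one]
        ring
      rwa [e] at h3
  -- the polynomial `G` is integer valued
  have hGint : ∀ j : ℕ, ∃ z : ℤ, G.eval (j : ℚ) = (z : ℚ) := by
    intro j
    obtain ⟨z, hz⟩ := interp_int N (D + 1) (by omega) (G - C (u 0 : ℚ)) (by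
      refine (natDegree_sub_le _ _).trans (max_le hGdeg ?_)
      rw [natDegree_C]
      omega) 1 (by
      intro s hs
      obtain ⟨z, hz⟩ := hden.trans (hMu s (by omega))
      refine ⟨z, ?_⟩
      rw [eval_sub, eval_C, hGN s (by omega)]
      have h1 : ((u (N * s) - u 0 : ℤ) : ℚ) = ((den N (D + 1) * z : ℤ) : ℚ) := by rw [hz]
      push_cast at h1 ⊢
      rw [one_mul]
      exact h1) j
    refine ⟨z + u 0, ?_⟩
    rw [eval_sub, eval_C] at hz
    push_cast at hz ⊢
    linarith only [hz]
  choose zG hzG using hGint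
  -- and congruent to `u` modulo `p`
  obtain ⟨Q, hQdeg, q, hQ, hq⟩ := exists_follow D k p u hd
  have hpden : IsCoprime (p : ℤ) (den N (D + 1)) := hpN.of_isCoprime_of_dvd_right hden
  have hmod : ∀ j < k, (p : ℤ) ∣ u j - zG j := by
    intro j hj
    obtain ⟨z, hz⟩ := interp_int N (D + 1) (by omega) (C ((den N (D + 1) : ℤ) : ℚ) * (G - Q)) (by
      refine (natDegree_C_mul_le _ _).trans ((natDegree_sub_le _ _).trans (max_le hGdeg ?_))
      omega) p (by
      intro s hs
      obtain ⟨z, hz⟩ := hq (N * s) (by have := hNk s (by omega); omega)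
      refine ⟨z, ?_⟩
      rw [eval_mul, eval_C, eval_sub, hGN s (by omega)]
      have h1 := hQ (N * s)
      push_cast at h1
      rw [h1]
      have h2 : ((u (N * s) - q (N * s) : ℤ) : ℚ) = (((p : ℤ) * z : ℤ) : ℚ) := by rw [hz]
      push_cast at h2 ⊢
      rw [h2]
      ring) j
    rw [eval_mul, eval_C, eval_sub, hzG, hQ] at hz
    have h3 : den N (D + 1) * (zG j - q j) = p * z := by exact_mod_cast hz
    have h4 : (p : ℤ) ∣ den N (D + 1) * (zG j - q j) := ⟨z, h3⟩
    have h5 := hpden.dvd_of_dvd_mul_left h4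
    have h6 := dvd_sub (hq j hj) h5
    have e : u j - q j - (zG j - q j) = u j - zG j := by ring
    rwa [e] at h6
  -- the difference is periodic and vanishes at the multiples of `N`
  have heper : ∀ j, j + N < k → u (j + N) - zG (j + N) = u j - zG j := by
    intro j hj
    have h1 := hGper j hj
    rw [hzG, hzG] at h1
    have h2 : zG (j + N) - zG j = u (j + N) - u j := by exact_mod_cast h1
    linarith only [h2]
  have heN : ∀ s, s ≤ D + 2 → zG (N * s) = u (N * s) := by
    intro s hs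
    have h1 := hGN s hs
    have h2 := hzG (N * s)
    push_cast at h2
    rw [h2] at h1
    exact_mod_cast h1
  have hemod : ∀ s j1, j1 + N * s < k → u (j1 + N * s) - zG (j1 + N * s) = u j1 - zG j1 := by
    intro s
    induction s with
    | zero => intro j1 _; rw [Nat.mul_zero, Nat.add_zero]
    | succ s ih =>
      intro j1 hj
      have e : j1 + N * (s + 1) = j1 + N * s + N := by ring
      rw [e] at hj ⊢
      rw [heper _ hj]
      exact ih j1 (by omega)
  have hezero : ∀ j1, j1 < N → u j1 - zG j1 = 0 := by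
    intro j1 hj1
    by_contra hne
    have hj1k : j1 < k := by have := hNk 0 (by omega); omega
    have hpe := hmod j1 hj1k
    have habs : (p : ℤ) ≤ |u j1 - zG j1| := by
      by_contra hcon
      push Not at hcon
      exact hne (Int.eq_zero_of_abs_lt_dvd hpe hcon)
    have hsk : ∀ s, s ≤ D + 1 → j1 + N * s < k := by
      intro s hs
      have := hNk s (by omega)
      omega
    -- sign of the difference
    obtain ⟨σ, hσ, hσe⟩ : ∃ σ : ℤ, (σ = 1 ∨ σ = -1) ∧ (p : ℤ) ≤ σ * (u j1 - zG j1) := by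
      rcases le_or_gt 0 (u j1 - zG j1) with h0 | h0
      · rw [abs_of_nonneg h0] at habs
        exact ⟨1, Or.inl rfl, by linarith only [habs]⟩
      · rw [abs_of_neg h0] at habs
        exact ⟨-1, Or.inr rfl, by linarith only [habs]⟩
    have hσu : ∀ x : ℤ, |x| ≤ h → -(h : ℤ) ≤ σ * x ∧ σ * x ≤ h := by
      intro x hx
      rw [abs_le] at hx
      rcases hσ with rfl | rfl
      · constructor <;> linarith only [hx.1, hx.2]
      · constructor <;> linarith only [hx.1, hx.2]
    set R : ℝ[X] := (C (σ : ℚ) * G + C ((p : ℚ) / 2)).map (algebraMap ℚ ℝ) with hR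
    have hReval : ∀ j : ℕ, R.eval (j : ℝ) = (σ : ℝ) * (zG j : ℝ) + (p : ℝ) / 2 := by
      intro j
      have h1 : R.eval (j : ℝ) =
          (((C (σ : ℚ) * G + C ((p : ℚ) / 2)).eval (j : ℚ) : ℚ) : ℝ) := by
        rw [hR, Polynomial.eval_natCast_map]
        rfl
      rw [h1, eval_add, eval_mul, eval_C, eval_C, hzG]
      push_cast
      rfl
    apply no_alternate R (D + 1) N j1 hj1
    · rw [hR]
      refine (natDegree_map_le).trans ?_
      refine (natDegree_add_le _ _).trans (max_le ?_ ?_)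
      · exact (natDegree_C_mul_le _ _).trans hGdeg
      · rw [natDegree_C]
        omega
    · intro s hs
      have e : (N : ℝ) * s = ((N * s : ℕ) : ℝ) := by push_cast; rfl
      rw [e, hReval, heN s (by omega)]
      have h1 := (hσu (u (N * s)) (hu _ (by have := hNk s (by omega); omega))).1
      have h2 : -(h : ℝ) ≤ (σ : ℝ) * (u (N * s) : ℝ) := by exact_mod_cast h1
      have h3 : (4 : ℝ) * h < p := by exact_mod_cast hh
      have h4 : (0 : ℝ) ≤ h := Nat.cast_nonneg _
      linarith only [h2, h3, h4]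
    · intro s hs
      have e : (j1 : ℝ) + N * s = ((j1 + N * s : ℕ) : ℝ) := by push_cast; rfl
      rw [e, hReval]
      have h1 := (hσu (u (j1 + N * s)) (hu _ (hsk s hs))).2
      have h2 := hemod s j1 (hsk s hs)
      have h3 : σ * zG (j1 + N * s) ≤ h - p := by
        have h4 : zG (j1 + N * s) = u (j1 + N * s) - (u j1 - zG j1) := by linarith only [h2]
        rw [h4, mul_sub]
        linarith only [h1, hσe]
      have h4 : (σ : ℝ) * (zG (j1 + N * s) : ℝ) ≤ h - p := by exact_mod_cast h3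
      have h5 : (4 : ℝ) * h < p := by exact_mod_cast hh
      have h6 : (0 : ℝ) ≤ h := Nat.cast_nonneg _
      linarith only [h4, h5, h6]
  have hall : ∀ j < k, G.eval (j : ℚ) = (u j : ℚ) := by
    intro j hj
    have h1 := hemod (j / N) (j % N) (by rw [Nat.mod_add_div]; exact hj)
    rw [Nat.mod_add_div, hezero (j % N) (Nat.mod_lt _ (by omega))] at h1
    rw [hzG j]
    have : zG j = u j := by linarith only [h1]
    rw [this]
  -- the degree is at most `D`
  have hdiff : ∀ j, j + (D + 1) < k →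
      (((fwdDiff 1)^[D + 1] u j : ℤ) : ℚ) = G.coeff (D + 1) * ((D + 1).factorial : ℚ) :=
    fun j hj => diff_poly G (D + 1) k hGdeg u hall j hj
  have hk0 : 0 + (D + 1) < k := by
    have h1 := hNk (D + 1) (by omega)
    have h2 : D + 1 ≤ N * (D + 1) := Nat.le_mul_of_pos_left _ (by omega)
    omega
  have hconst : ∀ j, j + (D + 1) < k → (fwdDiff 1)^[D + 1] u j = (fwdDiff 1)^[D + 1] u 0 := by
    intro j hj
    have h1 := hdiff j hj
    rw [← hdiff 0 hk0] at h1
    exact_mod_cast h1
  have hzero : (fwdDiff 1)^[D + 1] u 0 = 0 := by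
    by_contra hne
    have h1 := diff_poly H (D + 1) (D + 3) hH a hHe 0 (by omega)
    have h2 := hdiff 0 hk0
    have hcoeff : G.coeff (D + 1) = H.coeff (D + 1) * ((N : ℚ)⁻¹) ^ (D + 1) := by
      rw [hG, comp_C_mul_X_coeff]
    rw [hcoeff] at h2
    have h3 : ((N : ℤ) ^ (D + 1) * (fwdDiff 1)^[D + 1] u 0 : ℤ) = (fwdDiff 1)^[D + 1] a 0 := by
      have h4 : (((N : ℤ) ^ (D + 1) * (fwdDiff 1)^[D + 1] u 0 : ℤ) : ℚ) =
          (((fwdDiff 1)^[D + 1] a 0 : ℤ) : ℚ) := by
        rw [h1]
        push_cast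
        rw [h2, inv_pow]
        have : (N : ℚ) ^ (D + 1) ≠ 0 := pow_ne_zero _ hNQ
        field_simp
      exact_mod_cast h4
    have h4 : |(fwdDiff 1)^[D + 1] a 0| ≤ 2 ^ (D + 1) * (h : ℤ) := by
      apply abs_diff_le
      intro i _ hi
      exact hu (N * i) (by have := hNk i (by omega); omega)
    have h5 : (p : ℤ) ≤ |(fwdDiff 1)^[D + 1] u 0| := by
      by_contra hcon
      push Not at hcon
      exact hne (Int.eq_zero_of_abs_lt_dvd (hd 0 hk0) hcon)
    rw [← h3, abs_mul, abs_of_nonneg (by positivity : (0 : ℤ) ≤ (N : ℤ) ^ (D + 1))] at h4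
    have h6 : (2 : ℤ) ^ (D + 1) ≤ (N : ℤ) ^ (D + 1) :=
      pow_le_pow_left₀ (by norm_num) (by exact_mod_cast hN) _
    have h7 : (2 : ℤ) ^ (D + 1) * p ≤ 2 ^ (D + 1) * h := by
      calc (2 : ℤ) ^ (D + 1) * p ≤ (N : ℤ) ^ (D + 1) * |(fwdDiff 1)^[D + 1] u 0| :=
            mul_le_mul h6 h5 (by positivity) (by positivity)
        _ ≤ _ := h4
    have h8 := le_of_mul_le_mul_left h7 (by positivity : (0 : ℤ) < 2 ^ (D + 1))
    linarith only [h8, hpZ, hhN]
  intro j hj
  rw [hconst j hj, hzero]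

end Vale.Agent.P057.H562
end
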