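import Vale.Agent.P057.H562.Per

set_option linter.all false

section

open Finset

namespace Vale.Agent.P057.H562

open Vale.Agent.P057.Lower

theorem abs_den_le (N m : ℕ) (hN : 1 ≤ N) (hm : 1 ≤ m) :
    |den N m| ≤ ((N : ℤ) * m) ^ ((m + 1) * m) := by
  have h1 : ∀ s ∈ Finset.range (m + 1),
      |∏ i ∈ (Finset.range (m + 1)).erase s, ((N : ℤ) * ((s : ℤ) - i))| ≤ ((N : ℤ) * m) ^ m := by
    intro s hs
    rw [Finset.abs_prod]
    calc ∏ i ∈ (Finset.range (m + 1)).erase s, |(N : ℤ) * ((s : ℤ) - i)|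
        ≤ ∏ i ∈ (Finset.range (m + 1)).erase s, ((N : ℤ) * m) := by
          apply Finset.prod_le_prod
          · intro i _; exact abs_nonneg _
          · intro i hi
            rw [abs_mul, abs_of_nonneg (by positivity : (0 : ℤ) ≤ N)]
            apply mul_le_mul_of_nonneg_left _ (by positivity)
            have h2 := Finset.mem_range.1 (Finset.mem_of_mem_erase hi)
            have h3 := Finset.mem_range.1 hs
            rw [abs_le]
            constructor <;> omega
      _ = ((N : ℤ) * m) ^ m := by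
          rw [Finset.prod_const, Finset.card_erase_of_mem hs, Finset.card_range,
            Nat.add_sub_cancel]
  unfold den
  rw [Finset.abs_prod]
  calc ∏ s ∈ Finset.range (m + 1),
        |∏ i ∈ (Finset.range (m + 1)).erase s, ((N : ℤ) * ((s : ℤ) - i))|
      ≤ ∏ s ∈ Finset.range (m + 1), ((N : ℤ) * m) ^ m :=
        Finset.prod_le_prod (fun _ _ => abs_nonneg _) h1
    _ = ((N : ℤ) * m) ^ ((m + 1) * m) := by
        rw [Finset.prod_const, Finset.card_range, ← pow_mul, mul_comm m (m + 1)]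

theorem log_modu (N D : ℕ) (hN : 1 ≤ N) :
    Real.log (modu N D) ≤ ((D : ℝ) + 2) ^ 2 * (Real.log N + Real.log ((D : ℝ) + 2) + 1) := by
  have hNR : (1 : ℝ) ≤ N := by exact_mod_cast hN
  have hlogN : 0 ≤ Real.log N := Real.log_nonneg hNR
  have hD0 : (0 : ℝ) ≤ D := Nat.cast_nonneg D
  have hlogD : 0 ≤ Real.log ((D : ℝ) + 1) := Real.log_nonneg (by linarith only [hD0])
  have hlogD2 : Real.log ((D : ℝ) + 1) ≤ Real.log ((D : ℝ) + 2) :=
    Real.log_le_log (by linarith only [hD0]) (by linarith only)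
  have hdpos : (0 : ℝ) < ((den N (D + 1)).natAbs : ℝ) := by
    exact_mod_cast Int.natAbs_pos.2 (den_ne_zero N (D + 1) (by omega))
  have h1 : ((den N (D + 1)).natAbs : ℝ) ≤ ((N : ℝ) * (D + 1)) ^ ((D + 1 + 1) * (D + 1)) := by
    have h2 := abs_den_le N (D + 1) hN (by omega)
    have h3 : (((den N (D + 1)).natAbs : ℕ) : ℤ) ≤ ((N : ℤ) * (D + 1 : ℕ)) ^ ((D + 1 + 1) * (D + 1)) := by
      rw [Int.natCast_natAbs]
      exact h2
    have h4 : ((((den N (D + 1)).natAbs : ℕ) : ℤ) : ℝ) ≤
        ((((N : ℤ) * (D + 1 : ℕ)) ^ ((D + 1 + 1) * (D + 1)) : ℤ) : ℝ) := by exact_mod_cast h3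
    push_cast at h4
    rw [Nat.cast_natAbs]
    push_cast
    exact h4
  have h2 : Real.log ((den N (D + 1)).natAbs : ℝ) ≤
      ((D : ℝ) + 2) * (D + 1) * (Real.log N + Real.log ((D : ℝ) + 1)) := by
    have h3 := Real.log_le_log hdpos h1
    rw [Real.log_pow, Real.log_mul (by linarith only [hNR]) (by linarith only [hD0])] at h3
    push_cast at h3
    have e : ((D : ℝ) + 1 + 1) * (D + 1) = (D + 2) * (D + 1) := by ring
    rw [e] at h3
    exact h3
  have h3 : Real.log (modu N D) = ((D : ℝ) + 2) * Real.log 2 +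
      Real.log ((den N (D + 1)).natAbs : ℝ) := by
    unfold modu
    rw [Nat.cast_mul, Real.log_mul (by positivity) hdpos.ne', Nat.cast_pow, Real.log_pow]
    push_cast
    rfl
  have hlog2 : Real.log 2 ≤ 1 := by
    have := Real.log_two_lt_d9
    linarith only [this]
  rw [h3]
  have h4 : ((D : ℝ) + 2) * Real.log 2 ≤ (D + 2) * (D + 2) := by
    apply mul_le_mul_of_nonneg_left _ (by linarith only [hD0])
    linarith only [hlog2, hD0]
  have h5 : ((D : ℝ) + 2) * (D + 1) * (Real.log N + Real.log ((D : ℝ) + 1)) ≤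
      (D + 2) * (D + 2) * (Real.log N + Real.log ((D : ℝ) + 2)) := by
    apply mul_le_mul
    · nlinarith only [hD0]
    · linarith only [hlogD2]
    · linarith only [hlogN, hlogD]
    · positivity
  nlinarith only [h2, h4, h5]

end Vale.Agent.P057.H562
end
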