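import Vale.Agent.P057.H562.Asy

set_option linter.all false

section

open Finset Filter

namespace Vale.Agent.P057.H562

open Vale.Agent.P057.Lower

/-- the constant in the exponent, compared with the constant of O'Bryant -/
theorem scaled (k n : ℕ) (hn : 2 ≤ n) (κ c : ℝ) (hκ : 0 < κ) (hc : 0 < c)
    (hlt : κ / Real.log 2 < c ^ n)
    (h : Asy k 1 n (2 ^ (n * (n - 1) / 2) * (Real.log 2) ^ (n - 2) * κ)) :
    ∃ N₀ : ℕ, ∀ N : ℕ, N₀ ≤ N →
      ∃ A : Finset ℕ, A ⊆ Finset.Icc 1 N ∧ (∀ a d : ℕ, 0 < d → ¬ ∀ j < k, a + j * d ∈ A) ∧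
        (N : ℝ) * Real.exp (-(c * (n * (2 : ℝ) ^ (((n : ℝ) - 1) / 2) *
          Real.log 2 ^ (((n : ℝ) - 1) / n) * Real.log N ^ ((1 : ℝ) / n)))) ≤ A.card := by
  have hlog : 0 < Real.log 2 := Real.log_pos (by norm_num)
  have hnR : (0 : ℝ) < n := by
    have : 0 < n := by omega
    exact_mod_cast this
  have hq : 0 < κ / Real.log 2 := div_pos hκ hlog
  set r : ℝ := (κ / Real.log 2) ^ ((1 : ℝ) / n) with hr
  have hr0 : 0 < r := Real.rpow_pos_of_pos hq _
  have hrn : r ^ n = κ / Real.log 2 := by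
    rw [hr, ← Real.rpow_natCast, ← Real.rpow_mul hq.le]
    have : (1 : ℝ) / n * n = 1 := by field_simp
    rw [this, Real.rpow_one]
  have hrc : r < c := by
    rw [← hrn] at hlt
    exact lt_of_pow_lt_pow_left₀ n hc.le hlt
  obtain ⟨N0, hN0⟩ := to_sets k n _ h (c / r - 1) (by
    have : 1 < c / r := by rwa [one_lt_div hr0]
    linarith only [this])
  refine ⟨N0, fun N hN => ?_⟩
  obtain ⟨A, hA1, hA2, hA3⟩ := hN0 N hN
  refine ⟨A, hA1, hA2, le_trans (le_of_eq ?_) hA3⟩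
  have hL : 0 ≤ Real.log N := Real.log_natCast_nonneg N
  set Q : ℝ := (2 : ℝ) ^ (((n : ℝ) - 1) / 2) * Real.log 2 ^ (((n : ℝ) - 1) / n) with hQ
  have hQ0 : 0 < Q := mul_pos (Real.rpow_pos_of_pos (by norm_num) _) (Real.rpow_pos_of_pos hlog _)
  have hG : (2 : ℝ) ^ (n * (n - 1) / 2) * (Real.log 2) ^ (n - 2) * κ = (Q * r) ^ n := by
    rw [mul_pow, hrn, hQ, mul_pow, ← Real.rpow_natCast ((2 : ℝ) ^ (((n : ℝ) - 1) / 2)) n,
      ← Real.rpow_natCast (Real.log 2 ^ (((n : ℝ) - 1) / n)) n, ← Real.rpow_mul (by norm_num),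
      ← Real.rpow_mul hlog.le]
    have e1 : ((n : ℝ) - 1) / 2 * n = ((n * (n - 1) / 2 : ℕ) : ℝ) := by
      have h1 : 2 * (n * (n - 1) / 2) = n * (n - 1) :=
        Nat.mul_div_cancel' (Nat.even_mul_pred_self n).two_dvd
      have h2 : (2 : ℝ) * ((n * (n - 1) / 2 : ℕ) : ℝ) = n * (n - 1) := by
        have h3 : ((2 * (n * (n - 1) / 2) : ℕ) : ℝ) = ((n * (n - 1) : ℕ) : ℝ) := by rw [h1]
        rw [Nat.cast_mul n (n - 1), Nat.cast_sub (by omega : 1 ≤ n)] at h3
        push_cast at h3 ⊢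
        exact h3
      linarith only [h2]
    have e2 : ((n : ℝ) - 1) / n * n = ((n - 2 : ℕ) : ℝ) + 1 := by
      rw [Nat.cast_sub hn]
      push_cast
      field_simp
      ring
    rw [e1, e2, Real.rpow_natCast, Real.rpow_add hlog, Real.rpow_natCast, Real.rpow_one]
    field_simp
  have hGr : ((2 : ℝ) ^ (n * (n - 1) / 2) * (Real.log 2) ^ (n - 2) * κ * Real.log N) ^
      ((1 : ℝ) / n) = Q * r * Real.log N ^ ((1 : ℝ) / n) := by
    rw [hG, Real.mul_rpow (by positivity) hL, ← Real.rpow_natCast, ← Real.rpow_mul (by positivity)]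
    have : (n : ℝ) * (1 / n) = 1 := by field_simp
    rw [this, Real.rpow_one]
  rw [hGr]
  have e3 : c * (n * (2 : ℝ) ^ (((n : ℝ) - 1) / 2) *
      Real.log 2 ^ (((n : ℝ) - 1) / n) * Real.log N ^ ((1 : ℝ) / n)) =
      (1 + (c / r - 1)) * n * (Q * r * Real.log N ^ ((1 : ℝ) / n)) := by
    rw [hQ]
    field_simp
    ring
  rw [e3]

/-- `-log (1 - 2 / B) ≤ 4 / B` -/
theorem kappa_le (B : ℝ) (hB : 4 ≤ B) : -Real.log (1 - 2 / B) ≤ 4 / B := by
  have hB0 : 0 < B := by linarith only [hB]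
  have h1 : 2 / B ≤ 1 / 2 := by
    rw [div_le_div_iff₀ hB0 (by norm_num)]
    linarith only [hB]
  have h2 : 0 < 1 - 2 / B := by linarith only [h1]
  have h3 := Real.one_sub_inv_le_log_of_pos h2
  have h4 : (1 - 2 / B)⁻¹ ≤ 1 + 4 / B := by
    rw [inv_le_iff_one_le_mul₀ h2]
    have h5 : 0 ≤ 2 / B := by positivity
    have h6 : 4 / B = 2 * (2 / B) := by ring
    rw [h6]
    nlinarith only [h1, h5]
  linarith only [h3, h4]

theorem kappa_pos (B : ℝ) (hB : 3 ≤ B) : 0 < -Real.log (1 - 2 / B) := by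
  have hB0 : 0 < B := by linarith only [hB]
  have h1 : 2 / B < 1 := by
    rw [div_lt_one hB0]
    linarith only [hB]
  have h2 : 0 < 2 / B := by positivity
  have := Real.log_neg (by linarith only [h1] : 0 < 1 - 2 / B) (by linarith only [h2])
  linarith only [this]

/-- a good choice of the number of denominators for long progressions -/
theorem choose_B (c : ℝ) (hc : 1 / Real.sqrt 2 < c) : ∃ K : ℕ, ∀ k : ℕ, K ≤ k →
    ∃ B : ℕ, 4 ≤ B ∧ 12 * (B : ℝ) ^ 2 * (1 + Real.log k) ≤ k + 1 ∧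
      -Real.log (1 - 2 / (B : ℝ)) / Real.log 2 < c ^ (Nat.clog 2 k) := by
  have hs2 : 0 < Real.sqrt 2 := Real.sqrt_pos.2 (by norm_num)
  have hlog : 0 < Real.log 2 := Real.log_pos (by norm_num)
  have ha : 1 < c * Real.sqrt 2 := by rwa [div_lt_iff₀ hs2] at hc
  have hc0 : 0 < c := lt_trans (by positivity) hc
  set δ : ℝ := Real.log (c * Real.sqrt 2) / Real.log 2 with hδ
  have hδ0 : 0 < δ := div_pos (Real.log_pos ha) hlog
  -- growth facts
  have hev1 : ∀ᶠ x : ℝ in atTop, 1536 * (1 + Real.log x) < (Real.log 2) ^ 2 * x ^ (2 * δ) := by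
    have h1 := (isLittleO_log_rpow_atTop (by linarith only [hδ0] : 0 < 2 * δ)).bound
      (by positivity : 0 < (Real.log 2) ^ 2 / 6144)
    have h2 := (tendsto_rpow_atTop (by linarith only [hδ0] : 0 < 2 * δ)).eventually_gt_atTop
      (6144 / (Real.log 2) ^ 2)
    filter_upwards [h1, h2, eventually_ge_atTop 1] with x hx1 hx2 hx3
    rw [Real.norm_of_nonneg (Real.log_nonneg hx3), Real.norm_of_nonneg (by positivity)] at hx1
    rw [div_lt_iff₀ (by positivity)] at hx2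
    nlinarith only [hx1, hx2]
  have hev2 : ∀ᶠ x : ℝ in atTop, 192 * (1 + Real.log x) ≤ x := by
    have h1 := (isLittleO_log_rpow_atTop (by norm_num : (0 : ℝ) < 1)).bound
      (by norm_num : (0 : ℝ) < 1 / 384)
    filter_upwards [h1, eventually_ge_atTop 384] with x hx1 hx2
    rw [Real.norm_of_nonneg (Real.log_nonneg (by linarith only [hx2])),
      Real.norm_of_nonneg (by positivity), Real.rpow_one] at hx1
    linarith only [hx1, hx2]
  have hev := (tendsto_natCast_atTop_atTop (R := ℝ)).eventually (hev1.and hev2)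
  obtain ⟨K, hK⟩ := eventually_atTop.1 hev
  refine ⟨max K 4, fun k hk => ?_⟩
  have hk4 : 4 ≤ k := le_trans (le_max_right _ _) hk
  obtain ⟨hk1, hk2⟩ := hK k (le_trans (le_max_left _ _) hk)
  have hkR : (4 : ℝ) ≤ k := by exact_mod_cast hk4
  have hlogk : 0 ≤ Real.log k := Real.log_natCast_nonneg k
  set x : ℝ := ((k : ℝ) + 1) / (12 * (1 + Real.log k)) with hx
  have hden : 0 < 12 * (1 + Real.log (k : ℝ)) := by linarith only [hlogk]
  have hx16 : 16 ≤ x := by
    rw [hx, le_div_iff₀ hden]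
    linarith only [hk2]
  have hsx : 4 ≤ Real.sqrt x := by
    apply Real.le_sqrt_of_sq_le
    linarith only [hx16]
  have hB4 : 4 ≤ ⌊Real.sqrt x⌋₊ := Nat.le_floor (by exact_mod_cast hsx)
  have hB1 : ((⌊Real.sqrt x⌋₊ : ℕ) : ℝ) ≤ Real.sqrt x := Nat.floor_le (Real.sqrt_nonneg _)
  have hB2 : Real.sqrt x < (⌊Real.sqrt x⌋₊ : ℕ) + 1 := Nat.lt_floor_add_one _
  generalize ⌊Real.sqrt x⌋₊ = B at hB4 hB1 hB2
  have hBR : (4 : ℝ) ≤ B := by exact_mod_cast hB4
  refine ⟨B, hB4, ?_, ?_⟩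
  · have h1 : (B : ℝ) ^ 2 ≤ x := by
      calc (B : ℝ) ^ 2 ≤ (Real.sqrt x) ^ 2 := pow_le_pow_left₀ (by positivity) hB1 2
        _ = x := Real.sq_sqrt (by linarith only [hx16])
    rw [hx, le_div_iff₀ hden] at h1
    linarith only [h1]
  · -- compare with `c ^ n`
    set n := Nat.clog 2 k with hn
    have hpow1 : k ≤ 2 ^ n := Nat.le_pow_clog (by norm_num) k
    have hpow2 : 2 ^ n < 2 * k := by
      have h1 : 2 ^ (n - 1) < k := Nat.pow_pred_clog_lt_self (by norm_num) (by omega)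
      have h2 : 0 < n := Nat.clog_pos (by norm_num) (by omega)
      have h3 : 2 ^ n = 2 * 2 ^ (n - 1) := by
        rw [← pow_succ']
        congr 1
        omega
      omega
    have hkpos : (0 : ℝ) < k := by linarith only [hkR]
    have h1 : (k : ℝ) ^ δ ≤ (c * Real.sqrt 2) ^ n := by
      have h2 : Real.log k ≤ n * Real.log 2 := by
        have h3 : Real.log k ≤ Real.log ((2 ^ n : ℕ) : ℝ) :=
          Real.log_le_log hkpos (by exact_mod_cast hpow1)
        rwa [Nat.cast_pow, Nat.cast_ofNat, Real.log_pow] at h3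
      rw [Real.rpow_def_of_pos hkpos, ← Real.exp_log (by positivity : 0 < (c * Real.sqrt 2) ^ n),
        Real.log_pow]
      apply Real.exp_le_exp.2
      rw [hδ]
      have h3 := mul_le_mul_of_nonneg_right h2 hδ0.le
      rw [hδ] at h3
      have h4 : (n : ℝ) * Real.log 2 * (Real.log (c * Real.sqrt 2) / Real.log 2) =
          n * Real.log (c * Real.sqrt 2) := by
        field_simp
      linarith only [h3, h4]
    have h2 : (Real.sqrt 2 ^ n) ^ 2 < 2 * k := by
      rw [← pow_mul, mul_comm n 2, pow_mul, Real.sq_sqrt (by norm_num)]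
      exact_mod_cast hpow2
    -- lower bound for c ^ n
    have h3 : ((k : ℝ) ^ δ) ^ 2 < (c ^ n) ^ 2 * (2 * k) := by
      have h4 : ((k : ℝ) ^ δ) ^ 2 ≤ ((c * Real.sqrt 2) ^ n) ^ 2 :=
        pow_le_pow_left₀ (by positivity) h1 2
      rw [mul_pow, mul_pow] at h4
      refine lt_of_le_of_lt h4 ?_
      exact mul_lt_mul_of_pos_left h2 (by positivity)
    have h4 : ((k : ℝ) ^ δ) ^ 2 = (k : ℝ) ^ (2 * δ) := by
      rw [← Real.rpow_natCast, ← Real.rpow_mul hkpos.le]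
      congr 1
      push_cast
      ring
    rw [h4] at h3
    have h5 : -Real.log (1 - 2 / (B : ℝ)) ≤ 4 / B := kappa_le B hBR
    have h6 : 4 / (B : ℝ) < c ^ n * Real.log 2 := by
      have h7 : (4 / (B : ℝ)) ^ 2 < (c ^ n * Real.log 2) ^ 2 := by
        have h8 : x < 4 * (B : ℝ) ^ 2 := by
          have h9 : Real.sqrt x < 2 * B := by linarith only [hB2, hBR]
          have h10 : Real.sqrt x ^ 2 < (2 * B) ^ 2 :=
            pow_lt_pow_left₀ h9 (Real.sqrt_nonneg _) (by norm_num)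
          rw [Real.sq_sqrt (by linarith only [hx16])] at h10
          linarith only [h10]
        rw [hx, div_lt_iff₀ hden] at h8
        rw [div_pow, mul_pow, div_lt_iff₀ (by positivity)]
        -- 16 < (c ^ n) ^ 2 (log 2) ^ 2 B ^ 2
        have h11 : 1536 * (1 + Real.log (k : ℝ)) <
            (Real.log 2) ^ 2 * ((c ^ n) ^ 2 * (2 * k)) :=
          lt_trans hk1 (mul_lt_mul_of_pos_left h3 (by positivity))
        have h12 : (k : ℝ) < 48 * (B : ℝ) ^ 2 * (1 + Real.log k) := by linarith only [h8]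
        have h13 : (0 : ℝ) < (Real.log 2) ^ 2 * (c ^ n) ^ 2 := by positivity
        have h14 := mul_lt_mul_of_pos_left h12 h13
        have h15 : (0 : ℝ) < 1 + Real.log k := by linarith only [hlogk]
        have h16 : 16 * (1 + Real.log (k : ℝ)) <
            ((c ^ n) ^ 2 * (Real.log 2) ^ 2 * (B : ℝ) ^ 2) * (1 + Real.log k) := by
          linarith only [h11, h14]
        have h17 := lt_of_mul_lt_mul_right h16 h15.le
        linarith only [h17]
      exact lt_of_pow_lt_pow_left₀ 2 (by positivity) h7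
    rw [div_lt_iff₀ hlog]
    linarith only [h5, h6]

/-- For every `c > 1 / √2` and all long progressions the constant of O'Bryant can be
multiplied by `c`. -/
theorem large_k (c : ℝ) (hc : 1 / Real.sqrt 2 < c) : ∃ K : ℕ, ∀ k : ℕ, K ≤ k →
    ∀ n : ℕ, n = Nat.clog 2 k → ∃ N₀ : ℕ, ∀ N : ℕ, N₀ ≤ N →
      ∃ A : Finset ℕ, A ⊆ Finset.Icc 1 N ∧ (∀ a d : ℕ, 0 < d → ¬ ∀ j < k, a + j * d ∈ A) ∧
        (N : ℝ) * Real.exp (-(c * (n * (2 : ℝ) ^ (((n : ℝ) - 1) / 2) *
          Real.log 2 ^ (((n : ℝ) - 1) / n) * Real.log N ^ ((1 : ℝ) / n)))) ≤ A.card := by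
  obtain ⟨K, hK⟩ := choose_B c hc
  refine ⟨max K 3, fun k hk n hn => ?_⟩
  subst hn
  have hk3 : 3 ≤ k := le_trans (le_max_right _ _) hk
  obtain ⟨B, hB4, hB1, hB2⟩ := hK k (le_trans (le_max_left _ _) hk)
  have hBR : (4 : ℝ) ≤ B := by exact_mod_cast hB4
  have hc0 : 0 < c := lt_trans (by positivity) hc
  have hκ := kappa_pos B (by linarith only [hBR])
  have hpow : 2 ^ (Nat.clog 2 k - 1) < k := Nat.pow_pred_clog_lt_self (by norm_num) (by omega)
  have hn2 : 2 ≤ Nat.clog 2 k := by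
    by_contra hcon
    push Not at hcon
    have h3 : k ≤ 2 ^ Nat.clog 2 k := Nat.le_pow_clog (by norm_num) k
    have h4 : 2 ^ Nat.clog 2 k ≤ 2 ^ 1 := Nat.pow_le_pow_right (by norm_num) (by omega)
    omega
  apply scaled k (Nat.clog 2 k) hn2 (-Real.log (1 - 2 / (B : ℝ))) c hκ hc0 hB2
  have h := asy_gen k (Nat.clog 2 k) hn2 hpow _ hκ (cost_rand k B (by omega) hB1) 1 one_pos
    (base k _ Nat.one_le_two_pow hpow)
  rwa [mul_one] at h

/-- the explicit form -/
theorem explicit_k (k B : ℕ) (hB : 3 ≤ B)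
    (hk : 2 * (B : ℝ) ^ 2 * (B + 1) ≤ k + 1 ∨ 12 * (B : ℝ) ^ 2 * (1 + Real.log k) ≤ k + 1)
    (n : ℕ) (hn : n = Nat.clog 2 k) (ε : ℝ) (hε : 0 < ε) :
    ∃ N₀ : ℕ, ∀ N : ℕ, N₀ ≤ N →
      ∃ A : Finset ℕ, A ⊆ Finset.Icc 1 N ∧ (∀ a d : ℕ, 0 < d → ¬ ∀ j < k, a + j * d ∈ A) ∧
        (N : ℝ) * Real.exp (-((1 + ε) * n * ((2 ^ (n * (n - 1) / 2) * Real.log 2 ^ (n - 2) *
          Real.log (B / (B - 2))) * Real.log N) ^ ((1 : ℝ) / n))) ≤ A.card := by
  subst hn
  have hBR : (3 : ℝ) ≤ B := by exact_mod_cast hB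
  have hcost : Cost k 1 (-Real.log (1 - 2 / (B : ℝ))) := by
    rcases hk with hk | hk
    · exact cost_det k B hB (by exact_mod_cast hk)
    · exact cost_rand k B hB hk
  have hk3 : 3 ≤ k := by
    have hlogk : 0 ≤ Real.log k := Real.log_natCast_nonneg k
    have h1 : (3 : ℝ) ≤ k := by
      rcases hk with hk | hk
      · nlinarith only [hk, hBR]
      · nlinarith only [hk, hBR, hlogk, mul_nonneg (sq_nonneg (B : ℝ)) hlogk]
    exact_mod_cast h1
  have hκ := kappa_pos B hBR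
  have hpow : 2 ^ (Nat.clog 2 k - 1) < k := Nat.pow_pred_clog_lt_self (by norm_num) (by omega)
  have hn2 : 2 ≤ Nat.clog 2 k := by
    by_contra hcon
    push Not at hcon
    have h3 : k ≤ 2 ^ Nat.clog 2 k := Nat.le_pow_clog (by norm_num) k
    have h4 : 2 ^ Nat.clog 2 k ≤ 2 ^ 1 := Nat.pow_le_pow_right (by norm_num) (by omega)
    omega
  have h := asy_gen k (Nat.clog 2 k) hn2 hpow _ hκ hcost 1 one_pos
    (base k _ Nat.one_le_two_pow hpow)
  have e : -Real.log (1 - 2 / (B : ℝ)) = Real.log (B / (B - 2)) := by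
    rw [← Real.log_inv]
    congr 1
    have : (B : ℝ) - 2 ≠ 0 := by linarith only [hBR]
    field_simp
  rw [mul_one, e] at h
  exact to_sets k _ _ h ε hε

end Vale.Agent.P057.H562
end
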