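import Vale.Agent.P057.H562.Cou
import Vale.Agent.P057.H562.Big

set_option linter.all false

section

open Finset Filter

namespace Vale.Agent.P057.H562

open Vale.Agent.P057.Lower

/-- the largest `m`-th power below `N` -/
theorem exists_root (m : ℕ) (hm : 0 < m) (N : ℕ) : ∃ M : ℕ, M ^ m ≤ N ∧ N < (M + 1) ^ m := by
  induction N with
  | zero => exact ⟨0, by rw [zero_pow hm.ne'], by positivity⟩
  | succ N ih =>
    obtain ⟨M, h1, h2⟩ := ih
    rcases Nat.lt_or_ge (N + 1) ((M + 1) ^ m) with h | h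
    · exact ⟨M, by omega, h⟩
    · refine ⟨M + 1, h, ?_⟩
      have h3 : (M + 1) ^ m < (M + 1 + 1) ^ m := Nat.pow_lt_pow_left (by omega) hm.ne'
      omega

theorem aux_e (c a : ℝ) (hc : 0 < c) : (2 * (2 * c * a)) * (1 / (4 * c)) = a := by
  rw [mul_one_div, div_eq_iff (by positivity)]
  ring

/-- the last level: sets of size about `N ^ (1 / m)` -/
theorem asy_base (k D m p : ℕ) (hm : 3 ≤ m) (hD : 1 ≤ D) (hkm : (m + 2) * D < m * k)
    (hp : p.Prime) (hpD : D + 2 ≤ p) (hpk : p ≤ k) : Asy k D 1 (1 - 1 / (m : ℝ)) := by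
  intro ε hε
  have hk : 0 < k := by omega
  have hC : (0 : ℝ) < colC k := by exact_mod_cast colC_pos k hk
  have hmR : (3 : ℝ) ≤ m := by exact_mod_cast hm
  have hm1 : 0 < 1 - 1 / (m : ℝ) := by
    have : 1 / (m : ℝ) < 1 := by
      rw [div_lt_one (by linarith only [hmR])]
      linarith only [hmR]
    linarith only [this]
  obtain ⟨N1, hN1⟩ := eventually_atTop.1 (((Real.tendsto_log_atTop.comp
    (tendsto_natCast_atTop_atTop (R := ℝ))).const_mul_atTop
      (mul_pos hε hm1)).eventually_ge_atTop (Real.log (4 * colC k)))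
  refine ⟨max N1 1, fun N hN => ?_⟩
  have hNpos : 1 ≤ N := le_trans (le_max_right _ _) hN
  have h1 := hN1 N (le_trans (le_max_left _ _) hN)
  have h1' : Real.log (4 * colC k) ≤ ε * (1 - 1 / (m : ℝ)) * Real.log N := h1
  obtain ⟨M, hM1, hM2⟩ := exists_root m (by omega) N
  have hM : 0 < M := by
    rcases Nat.eq_zero_or_pos M with h0 | h0
    · rw [h0, zero_add, one_pow] at hM2
      omega
    · exact h0
  obtain ⟨A, hA1, hA2, hA3⟩ := exists_free k D m M p hm hM hD hkm hp hpD hpk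
  refine ⟨A, hA1.trans (Finset.Ico_subset_Ico_right (by exact_mod_cast hM1)), hA2, ?_⟩
  have hNR : (0 : ℝ) < N := by exact_mod_cast hNpos
  set L := Real.log N with hL
  have hNe : (N : ℝ) = Real.exp L := (Real.exp_log hNR).symm
  simp only [Nat.cast_one, mul_one, div_one, Real.rpow_one]
  have h2 : (N : ℝ) * Real.exp (-((1 + ε) * ((1 - 1 / (m : ℝ)) * L))) =
      Real.exp (L / m) * Real.exp (-(ε * (1 - 1 / (m : ℝ)) * L)) := by
    rw [hNe, ← Real.exp_add, ← Real.exp_add]
    congr 1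
    ring
  rw [h2]
  have h3 : Real.exp (-(ε * (1 - 1 / (m : ℝ)) * L)) ≤ 1 / (4 * colC k) := by
    rw [Real.exp_neg, ← one_div]
    apply one_div_le_one_div_of_le (by positivity)
    rw [← Real.exp_log (by positivity : (0 : ℝ) < 4 * colC k)]
    exact Real.exp_le_exp.2 h1'
  have h4 : Real.exp (L / m) ≤ 2 * M := by
    have h5 : Real.exp (L / m) < (M : ℝ) + 1 := by
      have h6 : Real.exp (L / m) ^ m < ((M : ℝ) + 1) ^ m := by
        have h7 : Real.exp (L / m) ^ m = N := by
          rw [← Real.exp_nat_mul, hNe]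
          congr 1
          field_simp
        rw [h7]
        exact_mod_cast hM2
      exact lt_of_pow_lt_pow_left₀ m (by positivity) h6
    have h8 : (1 : ℝ) ≤ M := by exact_mod_cast hM
    linarith only [h5, h8]
  have h5 : (M : ℝ) ≤ 2 * colC k * A.card := by exact_mod_cast hA3
  generalize (colC k : ℝ) = c at hC h3 h5
  have e : (2 * (2 * c * (A.card : ℝ))) * (1 / (4 * c)) = A.card := aux_e c _ hC
  calc Real.exp (L / m) * Real.exp (-(ε * (1 - 1 / (m : ℝ)) * L))
      ≤ (2 * M) * (1 / (4 * c)) :=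
        mul_le_mul h4 h3 (Real.exp_pos _).le (by positivity)
    _ ≤ (2 * (2 * c * A.card)) * (1 / (4 * c)) :=
        mul_le_mul_of_nonneg_right (by linarith only [h5]) (by positivity)
    _ = A.card := e

/-- both ends of the tower improved together -/
theorem both_ends (k m p n : ℕ) (hn : n = Nat.clog 2 k) (hn2 : 2 ≤ n) (hm : 3 ≤ m)
    (hp : p.Prime) (hp1 : 2 ^ (n - 1) + 2 ≤ p) (hp2 : p ≤ k)
    (hkm : (m + 2) * 2 ^ (n - 1) < m * k)
    (κ : ℝ) (hκ : 0 < κ) (hcost : Cost k 1 κ) :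
    Asy k 1 n (2 ^ (n * (n - 1) / 2) * Real.log 2 ^ (n - 2) * κ * (1 - 1 / (m : ℝ))) := by
  have hmR : (3 : ℝ) ≤ m := by exact_mod_cast hm
  have hm1 : 0 < 1 - 1 / (m : ℝ) := by
    have : 1 / (m : ℝ) < 1 := by
      rw [div_lt_one (by linarith only [hmR])]
      linarith only [hmR]
    linarith only [this]
  have hpow : 2 ^ (n - 1) < k := by omega
  exact asy_gen k n hn2 hpow κ hκ hcost (1 - 1 / (m : ℝ)) hm1
    (asy_base k _ m p hm Nat.one_le_two_pow hkm hp hp1 hp2)

end Vale.Agent.P057.H562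
end
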