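import Vale.Agent.P057.H562.Cst

set_option linter.all false

section

open Finset Polynomial

namespace Vale.Agent.P057.H562

open Vale.Agent.P057.Lower

/-- the levels between the first and the last one, from any last level -/
theorem asy_pow_gen (k n : ℕ) (hn : 1 ≤ n) (hk : 2 ^ (n - 1) < k) (G0 : ℝ) (hG0 : 0 < G0)
    (hbase : Asy k (2 ^ (n - 1)) 1 G0) :
    ∀ t, t + 2 ≤ n → Asy k (2 ^ (n - 1 - t)) (t + 1)
      (2 ^ (∑ j ∈ range t, (n - 1 - j)) * (Real.log 2) ^ t * G0) := by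
  intro t
  induction t with
  | zero =>
    intro _
    simp only [Nat.sub_zero, zero_add, range_zero, sum_empty, pow_zero, mul_one, one_mul]
    exact hbase
  | succ t ih =>
    intro ht
    have h := ih (by omega)
    have hlog : 0 < Real.log 2 := Real.log_pos (by norm_num)
    have e1 : 2 ^ (n - 1 - t) = 2 * 2 ^ (n - 1 - (t + 1)) := by
      rw [← pow_succ']
      congr 1
      omega
    rw [e1] at h
    have hlt : 2 ^ (n - 1 - (t + 1)) < k :=
      lt_of_le_of_lt (Nat.pow_le_pow_right (by norm_num) (by omega)) hk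
    have hst := step k (2 ^ (n - 1 - (t + 1))) (t + 1) Nat.one_le_two_pow hlt (by omega)
      (((2 ^ (n - 1 - (t + 1)) : ℕ) : ℝ) * Real.log 2) _ (by positivity) (by positivity)
      (cost_interval _ _) h
    have e2 : 2 * (((2 ^ (n - 1 - (t + 1)) : ℕ) : ℝ) * Real.log 2) *
        (2 ^ (∑ j ∈ range t, (n - 1 - j)) * (Real.log 2) ^ t * G0) =
        2 ^ (∑ j ∈ range (t + 1), (n - 1 - j)) * (Real.log 2) ^ (t + 1) * G0 := by
      rw [Finset.sum_range_succ, pow_add, pow_succ (Real.log 2)]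
      have e3 : (2 : ℝ) ^ (n - 1 - t) = 2 * ((2 ^ (n - 1 - (t + 1)) : ℕ) : ℝ) := by
        rw [← Nat.cast_ofNat (R := ℝ), ← Nat.cast_pow, e1]
        push_cast
        ring
      rw [e3]
      ring
    rw [e2] at hst
    exact hst

/-- all levels, from any cost of the first level and any last level -/
theorem asy_gen (k n : ℕ) (hn : 2 ≤ n) (hk : 2 ^ (n - 1) < k) (κ : ℝ) (hκ : 0 < κ)
    (hcost : Cost k 1 κ) (G0 : ℝ) (hG0 : 0 < G0) (hbase : Asy k (2 ^ (n - 1)) 1 G0) :
    Asy k 1 n (2 ^ (n * (n - 1) / 2) * (Real.log 2) ^ (n - 2) * κ * G0) := by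
  have h := asy_pow_gen k n (by omega) hk G0 hG0 hbase (n - 2) (by omega)
  have hk1 : 1 < k := lt_of_le_of_lt Nat.one_le_two_pow hk
  have e1 : n - 1 - (n - 2) = 1 := by omega
  have e2 : n - 2 + 1 = n - 1 := by omega
  rw [e1, e2] at h
  have hlog : 0 < Real.log 2 := Real.log_pos (by norm_num)
  have hst := step k 1 (n - 1) le_rfl hk1 (by omega) κ
    (2 ^ (∑ j ∈ range (n - 2), (n - 1 - j)) * (Real.log 2) ^ (n - 2) * G0) hκ
    (by positivity) hcost h
  have e3 : n - 1 + 1 = n := by omega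
  rw [e3] at hst
  have hsum : n * (n - 1) / 2 = (∑ j ∈ range (n - 2), (n - 1 - j)) + 1 := by
    have h1 : ∑ j ∈ range (n - 1), (n - 1 - j) = (∑ j ∈ range (n - 2), (n - 1 - j)) + 1 := by
      rw [← e2, Finset.sum_range_succ]
      congr 1
      omega
    rw [← h1]
    have h2 : ∑ j ∈ range (n - 1), (n - 1 - j) = ∑ j ∈ range n, j := by
      have h3 := Finset.sum_range_reflect (fun j => j) n
      rw [← h3]
      have h4 : n = (n - 1) + 1 := by omega
      conv_rhs => rw [h4, Finset.sum_range_succ]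
      simp only [add_tsub_cancel_right, tsub_self, add_zero]
    rw [h2, Finset.sum_range_id]
  have e4 : 2 * κ * (2 ^ (∑ j ∈ range (n - 2), (n - 1 - j)) *
      (Real.log 2) ^ (n - 2) * G0) =
      2 ^ (n * (n - 1) / 2) * (Real.log 2) ^ (n - 2) * κ * G0 := by
    rw [hsum, pow_succ]
    ring
  rw [e4] at hst
  exact hst

/-- from the asymptotic density statement to sets of positive integers -/
theorem to_sets (k n : ℕ) (G : ℝ) (h : Asy k 1 n G) (ε : ℝ) (hε : 0 < ε) :
    ∃ N₀ : ℕ, ∀ N : ℕ, N₀ ≤ N →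
      ∃ A : Finset ℕ, A ⊆ Finset.Icc 1 N ∧ (∀ a d : ℕ, 0 < d → ¬ ∀ j < k, a + j * d ∈ A) ∧
        (N : ℝ) * Real.exp (-((1 + ε) * n * (G * Real.log N) ^ ((1 : ℝ) / n))) ≤ A.card := by
  obtain ⟨N0, hN0⟩ := h ε hε
  refine ⟨N0, fun N hN => ?_⟩
  obtain ⟨A, hA, hAf, hAc⟩ := hN0 N hN
  refine ⟨A.image (fun a => a.toNat + 1), ?_, ?_, ?_⟩
  · intro x hx
    obtain ⟨a, ha, rfl⟩ := Finset.mem_image.1 hx
    have := Finset.mem_Ico.1 (hA ha)
    rw [Finset.mem_Icc]
    omega
  · intro a d hd hcon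
    have hP : (C ((d : ℚ)) * X + C ((a : ℚ) - 1)).natDegree = 1 :=
      natDegree_linear (by exact_mod_cast hd.ne')
    obtain ⟨j, hj, hne⟩ := hAf _ hP
    obtain ⟨b, hb, hb'⟩ := Finset.mem_image.1 (hcon j hj)
    apply hne b hb
    have h1 := Finset.mem_Ico.1 (hA hb)
    have h2 : b = (a : ℤ) + j * d - 1 := by
      have h3 : ((b.toNat + 1 : ℕ) : ℤ) = ((a + j * d : ℕ) : ℤ) := by rw [hb']
      push_cast at h3
      rw [Int.toNat_of_nonneg h1.1] at h3
      linarith only [h3]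
    rw [eval_add, eval_mul, eval_C, eval_C, eval_X, h2]
    push_cast
    ring
  · rw [Finset.card_image_of_injOn]
    · exact hAc
    · intro x hx y hy hxy
      have h1 := Finset.mem_Ico.1 (hA (Finset.mem_coe.1 hx))
      have h2 := Finset.mem_Ico.1 (hA (Finset.mem_coe.1 hy))
      have h3 : x.toNat + 1 = y.toNat + 1 := hxy
      omega

end Vale.Agent.P057.H562
end
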