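import Vale.Agent.P057.Bdl.B1
import Mathlib.NumberTheory.DiophantineApproximation.Basic

set_option linter.all false

section

open Finset

namespace Vale.Agent.P057.H562

open Vale.Agent.P057.Lower

/-- Dirichlet: a reduced fraction `a / b` close to `h / p` -/
theorem dirichlet (h : ℤ) (p k : ℕ) (hp : 0 < p) (hk : 0 < k) :
    ∃ a : ℤ, ∃ b : ℕ, 0 < b ∧ b ≤ k ∧ IsCoprime a (b : ℤ) ∧
      ((k : ℤ) + 1) * |(b : ℤ) * h - a * p| ≤ p := by
  obtain ⟨q, hq1, hq2⟩ := Real.exists_rat_abs_sub_le_and_den_le ((h : ℝ) / p) hk
  refine ⟨q.num, q.den, q.den_pos, hq2, ?_, ?_⟩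
  · exact Rat.isCoprime_num_den q
  · have hb : (0 : ℝ) < q.den := by exact_mod_cast q.den_pos
    have hpR : (0 : ℝ) < p := by exact_mod_cast hp
    have hkR : (0 : ℝ) < (k : ℝ) + 1 := by positivity
    rw [Rat.cast_def q] at hq1
    have e1 : (h : ℝ) / p - (q.num : ℝ) / q.den =
        ((q.den : ℝ) * h - q.num * p) / (p * q.den) := by
      field_simp
    rw [e1, abs_div, abs_of_pos (mul_pos hpR hb), div_le_div_iff₀ (mul_pos hpR hb)
      (mul_pos hkR hb)] at hq1
    have h2 : ((k : ℝ) + 1) * |(q.den : ℝ) * h - q.num * p| ≤ p := by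
      have h3 : (((k : ℝ) + 1) * |(q.den : ℝ) * h - q.num * p|) * q.den ≤ p * q.den := by
        linarith only [hq1]
      exact le_of_mul_le_mul_right h3 hb
    have h4 : ((((k : ℤ) + 1) * |(q.den : ℤ) * h - q.num * p| : ℤ) : ℝ) ≤ ((p : ℤ) : ℝ) := by
      push_cast
      exact h2
    exact_mod_cast h4

/-- an index below `b` whose class is the nearest one to a given place -/
theorem near (p : ℕ) (hp : 0 < p) (a : ℤ) (b : ℕ) (hb : 0 < b) (hab : IsCoprime a (b : ℤ))
    (z : ℤ) : ∃ j : ℕ, j < b ∧ ∃ c : ℤ, (b : ℤ) ∣ j * a - c ∧ |z + 2 * (c * p)| ≤ p := by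
  obtain ⟨s, t, hst⟩ := hab
  have hb' : (0 : ℤ) < b := by exact_mod_cast hb
  have hp' : (0 : ℤ) < p := by exact_mod_cast hp
  set c : ℤ := -((z + p) / (2 * p)) with hc
  have hj0 : 0 ≤ (c * s) % b := Int.emod_nonneg _ hb'.ne'
  have hj1 : (c * s) % b < b := Int.emod_lt_of_pos _ hb'
  refine ⟨((c * s) % b).toNat, by omega, c, ?_, ?_⟩
  · rw [Int.toNat_of_nonneg hj0]
    have h1 := Int.emod_add_mul_ediv (c * s) b
    refine ⟨-((c * s) / b * a) - c * t, ?_⟩
    linear_combination a * h1 + c * hst
  · have h1 := Int.emod_add_mul_ediv (z + p) (2 * p)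
    have h2 : 0 ≤ (z + p) % (2 * p) := Int.emod_nonneg _ (by positivity)
    have h3 : (z + p) % (2 * p) < 2 * p := Int.emod_lt_of_pos _ (by positivity)
    have h4 : z + 2 * (c * p) = (z + p) % (2 * p) - p := by
      rw [hc]
      linear_combination -h1
    rw [h4, abs_le]
    constructor <;> linarith only [h2, h3]

/-- A block for long progressions. The places near `p / 2` are removed, and for every
`b ≤ B` so is a set `R b` of small numbers that meets every progression of `L b` terms whose
step is coprime to `b`. -/
theorem block_long (k B p : ℕ) (hp : p.Prime) (hB : 2 ≤ B) (hBp : B < p)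
    (hk : 2 * B * (B + 1) ≤ k + 1) (L : ℕ → ℕ) (R : ℕ → ℤ → Prop)
    (hL : ∀ b, 2 ≤ b → b ≤ B → 2 * (b * L b) ≤ k + 1)
    (hit : ∀ b, 2 ≤ b → b ≤ B → ∀ x e : ℤ, IsCoprime e (b : ℤ) →
      ∃ s : ℕ, s < L b ∧ R b (x + s * e))
    (U : Finset ℤ) (hU1 : ∀ u ∈ U, 2 * B * |u| < ((B : ℤ) - 1) * (p : ℤ))
    (hU2 : ∀ u ∈ U, ∀ b, 2 ≤ b → b ≤ B → R b u → (p : ℤ) < b * |u|) :
    Block k 1 p U := by
  have hp0 : (0 : ℤ) < p := by exact_mod_cast hp.pos
  have hB' : (2 : ℤ) ≤ B := by exact_mod_cast hB
  have hk' : 2 * (B : ℤ) * (B + 1) ≤ k + 1 := by exact_mod_cast hk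
  have hk12 : 12 ≤ k + 1 := by nlinarith only [hk, hB]
  have hhalf : ∀ u ∈ U, 2 * |u| < (p : ℤ) := by
    intro u hu
    have h1 := hU1 u hu
    nlinarith only [h1, hp0, hB', abs_nonneg u]
  constructor
  · intro u hu v hv hdvd
    have h1 := hhalf u hu
    have h2 := hhalf v hv
    have h3 : |u - v| < p := by
      have := abs_sub u v
      linarith only [h1, h2, this]
    have := Int.eq_zero_of_abs_lt_dvd hdvd h3
    omega
  · intro u hu hdvd
    have hstep : ∀ j, j + 1 < k → (p : ℤ) ∣ u (j + 1) - u j - (u 1 - u 0) := by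
      intro j
      induction j with
      | zero =>
        intro _
        simp only [zero_add, sub_self, dvd_zero]
      | succ j ih =>
        intro hj
        have h1 := ih (by omega)
        have h2 := hdvd j (by omega)
        rw [diff_two] at h2
        have h3 := dvd_add h1 h2
        have e : u (j + 1) - u j - (u 1 - u 0) + (u j - 2 * u (j + 1) + u (j + 2)) =
            u (j + 1 + 1) - u (j + 1) - (u 1 - u 0) := by ring
        rwa [e] at h3
    have hlin : ∀ j, j < k → (p : ℤ) ∣ u j - u 0 - j * (u 1 - u 0) := by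
      intro j
      induction j with
      | zero =>
        intro _
        simp only [Nat.cast_zero, zero_mul, sub_self, dvd_zero]
      | succ j ih =>
        intro hj
        have h3 := dvd_add (ih (by omega)) (hstep j hj)
        have e : u j - u 0 - j * (u 1 - u 0) + (u (j + 1) - u j - (u 1 - u 0)) =
            u (j + 1) - u 0 - ((j + 1 : ℕ) : ℤ) * (u 1 - u 0) := by
          push_cast
          ring
        rwa [e] at h3
    obtain ⟨a, b, hb0, hbk, hab, he⟩ := dirichlet (u 1 - u 0) p k hp.pos (by omega)
    set e : ℤ := (b : ℤ) * (u 1 - u 0) - a * p with hedef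
    have hbpos : (0 : ℤ) < b := by exact_mod_cast hb0
    have hkpos : (0 : ℤ) ≤ k := by positivity
    have hform : ∀ j : ℕ, j < k → ∀ c : ℤ, (b : ℤ) ∣ j * a - c →
        ∃ t : ℤ, b * u j = b * u 0 + j * e + c * p + b * p * t := by
      intro j hj c hc
      obtain ⟨t1, ht1⟩ := hlin j hj
      obtain ⟨t2, ht2⟩ := hc
      refine ⟨t1 + t2, ?_⟩
      rw [hedef]
      linear_combination (b : ℤ) * ht1 + p * ht2
    rcases Nat.lt_or_ge B b with hbB | hbB
    · -- large denominator: some term is near `p / 2`
      exfalso
      obtain ⟨j, hj, c, hc, hz⟩ := near p hp.pos a b hb0 hab (2 * (b * u 0) - b * p)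
      obtain ⟨t, ht⟩ := hform j (by omega) c hc
      have h1 := hU1 _ (hu j (by omega))
      have hbB' : (B : ℤ) + 1 ≤ b := by exact_mod_cast hbB
      have h2 : (b : ℤ) * p - 2 * (b * |u j|) ≤ |2 * (b * u j) - b * p * (1 + 2 * t)| := by
        have h3 : |b * p * (1 + 2 * t)| ≤
            |2 * (b * u j) - b * p * (1 + 2 * t)| + |2 * (b * u j)| := by
          have := abs_sub_abs_le_abs_sub (b * p * (1 + 2 * t)) (2 * (b * u j))
          rw [abs_sub_comm] at this
          linarith only [this]
        have h4 : (b : ℤ) * p ≤ |b * p * (1 + 2 * t)| := by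
          rw [abs_mul, abs_of_pos (mul_pos hbpos hp0)]
          have h5 : 1 ≤ |1 + 2 * t| := by
            rcases le_or_gt 0 (1 + 2 * t) with h | h
            · rw [abs_of_nonneg h]; omega
            · rw [abs_of_neg h]; omega
          have h6 := mul_pos hbpos hp0
          nlinarith only [h5, h6]
        have h5 : |2 * (b * u j)| = 2 * (b * |u j|) := by
          rw [abs_mul, abs_mul, abs_of_pos hbpos]
          norm_num
        linarith only [h3, h4, h5]
      have h3 : |2 * (b * u j) - b * p * (1 + 2 * t)| ≤ p + 2 * (b * |e|) := by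
        have e1 : 2 * (b * u j) - b * p * (1 + 2 * t) =
            (2 * (b * u 0) - b * p + 2 * (c * p)) + 2 * (j * e) := by
          linear_combination 2 * ht
        rw [e1]
        refine (abs_add_le _ _).trans ?_
        have h4 : |2 * ((j : ℤ) * e)| = 2 * (j * |e|) := by
          rw [abs_mul, abs_mul, abs_of_nonneg (by positivity : (0 : ℤ) ≤ (j : ℤ))]
          norm_num
        have h5 : (j : ℤ) * |e| ≤ b * |e| := by
          apply mul_le_mul_of_nonneg_right _ (abs_nonneg _)
          exact_mod_cast hj.le
        linarith only [hz, h4, h5]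
      have h4 : (b : ℤ) * p < B * (p + 2 * (b * |e|)) := by
        have h5 := h2.trans h3
        have h6 := mul_le_mul_of_nonneg_left h5 (by linarith only [hB'] : (0 : ℤ) ≤ B)
        have h7 := mul_lt_mul_of_pos_left h1 hbpos
        nlinarith only [h6, h7]
      have h5 : ((k : ℤ) + 1) * (b * p) < (k + 1) * B * p + 2 * b * B * p := by
        have h6 := mul_lt_mul_of_pos_left h4 (by linarith only [hkpos] : (0 : ℤ) < (k : ℤ) + 1)
        have h7 := mul_le_mul_of_nonneg_left he
          (by positivity : (0 : ℤ) ≤ 2 * (b : ℤ) * B)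
        nlinarith only [h6, h7]
      have h6 : ((k : ℤ) + 1) * b < (k + 1) * B + 2 * b * B := by
        have h7 : (((k : ℤ) + 1) * b) * p < ((k + 1) * B + 2 * b * B) * p := by
          linarith only [h5]
        exact lt_of_mul_lt_mul_right h7 hp0.le
      nlinarith only [h6, hk', hbB', hB', mul_nonneg (by linarith only [hB'] : (0 : ℤ) ≤ B)
        (by linarith only [hbB'] : (0 : ℤ) ≤ (b : ℤ) - B - 1),
        mul_le_mul_of_nonneg_right hk' (by linarith only [hbB'] : (0 : ℤ) ≤ (b : ℤ) - B),
        mul_nonneg (mul_nonneg (by linarith only [hB'] : (0 : ℤ) ≤ B)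
          (by linarith only [hB'] : (0 : ℤ) ≤ B)) (by linarith only [hbB'] : (0 : ℤ) ≤ (b : ℤ) - B - 1)]
    · rcases Nat.lt_or_ge b 2 with hb2 | hb2
      · -- denominator one: the progression is genuine
        have hb1 : b = 1 := by omega
        subst hb1
        have hdiff : ∀ j, j + 1 < k → u (j + 1) - u j = e := by
          intro j hj
          have h1 := hU1 _ (hu (j + 1) hj)
          have h2 := hU1 _ (hu j (by omega))
          have h3 : (p : ℤ) ∣ u (j + 1) - u j - e := by
            have h4 := hstep j hj
            have h5 : u (j + 1) - u j - e = (u (j + 1) - u j - (u 1 - u 0)) + p * a := by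
              rw [hedef]
              push_cast
              ring
            rw [h5]
            exact dvd_add h4 (Dvd.intro _ rfl)
          have h4 : |u (j + 1) - u j - e| < p := by
            have h5 : |u (j + 1) - u j - e| ≤ |u (j + 1)| + |u j| + |e| :=
              (abs_sub _ _).trans (by linarith only [abs_sub (u (j + 1)) (u j)])
            have h6 : (B : ℤ) * |e| ≤ p - |e| := by
              have h7 : (B : ℤ) + 1 ≤ k + 1 := by nlinarith only [hk', hB']
              have h8 := mul_le_mul_of_nonneg_right h7 (abs_nonneg e)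
              linarith only [h8, he]
            have h9 : (B : ℤ) * (|u (j + 1)| + |u j| + |e|) < B * p := by
              have := abs_nonneg e
              linarith only [h1, h2, h6, this]
            have h10 := lt_of_mul_lt_mul_left h9 (by linarith only [hB'])
            linarith only [h5, h10]
          have := Int.eq_zero_of_abs_lt_dvd h3 h4
          linarith only [this]
        intro j hj
        rw [diff_two]
        have h1 := hdiff j (by omega)
        have h2 := hdiff (j + 1) (by omega)
        have e1 : j + 1 + 1 = j + 2 := rfl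
        rw [e1] at h2
        linarith only [h1, h2]
      · -- small denominator: the progression along a class meets `R b`
        exfalso
        have hb2' : (2 : ℤ) ≤ b := by exact_mod_cast hb2
        obtain ⟨s0, hs0, _⟩ := hit b hb2 hbB 0 1 isCoprime_one_left
        have hLb := hL b hb2 hbB
        obtain ⟨j0, hj0, c, hc, hz⟩ := near p hp.pos a b hb0 hab (2 * (b * u 0))
        have hidx : ∀ s : ℕ, s < L b → 2 * (j0 + s * b) ≤ k + 1 ∧ j0 + s * b < k := by
          intro s hs
          have h1 : j0 + s * b < b * L b := by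
            calc j0 + s * b < b + s * b := by omega
              _ = (s + 1) * b := by ring
              _ ≤ L b * b := Nat.mul_le_mul_right _ hs
              _ = b * L b := by ring
          omega
        have hexact : ∀ s : ℕ, s < L b →
            b * u (j0 + s * b) = b * u 0 + ((j0 + s * b : ℕ) : ℤ) * e + c * p ∧
            |b * u (j0 + s * b)| ≤ p := by
          intro s hs
          obtain ⟨hi1, hi2⟩ := hidx s hs
          have hc' : (b : ℤ) ∣ ((j0 + s * b : ℕ) : ℤ) * a - c := by
            have e1 : ((j0 + s * b : ℕ) : ℤ) * a - c = (j0 * a - c) + b * (s * a) := by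
              push_cast
              ring
            rw [e1]
            exact dvd_add hc (Dvd.intro _ rfl)
          obtain ⟨t, ht⟩ := hform _ hi2 c hc'
          have h1 := hhalf _ (hu _ hi2)
          have h2 : 2 * (((j0 + s * b : ℕ) : ℤ) * |e|) ≤ p := by
            have h3 : (2 * ((j0 + s * b : ℕ) : ℤ)) ≤ k + 1 := by exact_mod_cast hi1
            have h4 := mul_le_mul_of_nonneg_right h3 (abs_nonneg e)
            linarith only [h4, he]
          have h3 : |2 * (b * u 0 + ((j0 + s * b : ℕ) : ℤ) * e + c * p)| ≤ 2 * p := by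
            have e1 : 2 * (b * u 0 + ((j0 + s * b : ℕ) : ℤ) * e + c * p) =
                (2 * (b * u 0) + 2 * (c * p)) + 2 * (((j0 + s * b : ℕ) : ℤ) * e) := by ring
            rw [e1]
            refine (abs_add_le _ _).trans ?_
            have h4 : |2 * (((j0 + s * b : ℕ) : ℤ) * e)| =
                2 * (((j0 + s * b : ℕ) : ℤ) * |e|) := by
              rw [abs_mul, abs_mul,
                abs_of_nonneg (by positivity : (0 : ℤ) ≤ ((j0 + s * b : ℕ) : ℤ))]
              norm_num
            linarith only [hz, h4, h2]
          have h3' : |b * u 0 + ((j0 + s * b : ℕ) : ℤ) * e + c * p| ≤ p := by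
            rw [abs_mul, abs_two] at h3
            linarith only [h3]
          have ht0 : t = 0 := by
            by_contra hne
            have h4 : 1 ≤ |t| := Int.one_le_abs hne
            have h5 : |(b : ℤ) * p * t| = b * p * |t| := by
              rw [abs_mul, abs_of_pos (mul_pos hbpos hp0)]
            have h6 : (b : ℤ) * p * t = b * u (j0 + s * b) -
                (b * u 0 + ((j0 + s * b : ℕ) : ℤ) * e + c * p) := by
              linear_combination -ht
            have h7 : |(b : ℤ) * p * t| ≤ |b * u (j0 + s * b)| + p := by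
              rw [h6]
              exact (abs_sub _ _).trans (by linarith only [h3'])
            have h8 : |(b : ℤ) * u (j0 + s * b)| = b * |u (j0 + s * b)| := by
              rw [abs_mul, abs_of_pos hbpos]
            have h9 := mul_pos hbpos hp0
            nlinarith only [h4, h5, h7, h8, h9, mul_lt_mul_of_pos_left h1 hbpos,
              mul_le_mul_of_nonneg_right hb2' hp0.le]
          rw [ht0] at ht
          have h4 : b * u (j0 + s * b) = b * u 0 + ((j0 + s * b : ℕ) : ℤ) * e + c * p := by
            linear_combination ht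
          refine ⟨h4, ?_⟩
          rw [h4]
          exact h3'
        have hcop : IsCoprime e (b : ℤ) := by
          have h1 : IsCoprime (p : ℤ) (b : ℤ) := by
            rw [Nat.isCoprime_iff_coprime]
            refine (Nat.Prime.coprime_iff_not_dvd hp).2 (fun hd => ?_)
            have := Nat.le_of_dvd hb0 hd
            omega
          have h2 : IsCoprime (-(a * p)) (b : ℤ) := (IsCoprime.mul_left hab h1).neg_left
          have h3 := h2.add_mul_left_left (u 1 - u 0)
          have e1 : -(a * p) + b * (u 1 - u 0) = e := by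
            rw [hedef]
            ring
          rwa [e1] at h3
        obtain ⟨s, hs, hR⟩ := hit b hb2 hbB (u j0) e hcop
        have h1 := (hexact 0 (by omega)).1
        obtain ⟨h2, h3⟩ := hexact s hs
        have h4 : u (j0 + s * b) = u j0 + s * e := by
          have h5 : (b : ℤ) * (u (j0 + s * b)) = b * (u j0 + s * e) := by
            rw [zero_mul, add_zero] at h1
            rw [h2]
            push_cast
            linear_combination -h1
          exact mul_left_cancel₀ hbpos.ne' h5
        rw [← h4] at hR
        have h5 := hU2 _ (hu _ (hidx s hs).2) b hb2 hbB hR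
        rw [abs_mul, abs_of_pos hbpos] at h3
        linarith only [h3, h5]

end Vale.Agent.P057.H562
end
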