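import Vale.Agent.P057.Bdl.B1

set_option linter.all false

section

open Finset

namespace Vale.Agent.P057.H562

/-- the number of colourings that are constant on a given set -/
theorem card_mono {α : Type*} [Fintype α] [DecidableEq α] (q : ℕ) (V : Finset α)
    (hV : V.Nonempty) :
    (Finset.univ.filter (fun χ : α → Fin q => ∀ x ∈ V, ∀ y ∈ V, χ x = χ y)).card ≤
      q ^ (Fintype.card α + 1 - V.card) := by
  classical
  obtain ⟨v, hv⟩ := hV
  have hinj : Set.InjOn (fun (χ : α → Fin q) (x : ((V.erase v)ᶜ : Finset α)) => χ x)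
      (Finset.univ.filter (fun χ : α → Fin q => ∀ x ∈ V, ∀ y ∈ V, χ x = χ y)) := by
    intro χ hχ ψ hψ h
    have h1 := (Finset.mem_filter.1 (Finset.mem_coe.1 hχ)).2
    have h2 := (Finset.mem_filter.1 (Finset.mem_coe.1 hψ)).2
    have h3 : ∀ x, x ∉ V.erase v → χ x = ψ x := by
      intro x hx
      exact congrFun h ⟨x, Finset.mem_compl.2 hx⟩
    have h4 : χ v = ψ v := h3 v (Finset.notMem_erase v V)
    funext x
    by_cases hx : x ∈ V.erase v
    · have hxV := Finset.mem_of_mem_erase hx
      rw [h1 x hxV v hv, h2 x hxV v hv, h4]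
    · exact h3 x hx
  have h := Finset.card_le_card_of_injOn
    (t := (Finset.univ : Finset (((V.erase v)ᶜ : Finset α) → Fin q)))
    (fun (χ : α → Fin q) (x : ((V.erase v)ᶜ : Finset α)) => χ x)
    (fun _ _ => Finset.mem_coe.2 (Finset.mem_univ _)) hinj
  rw [Finset.card_univ, Fintype.card_fun, Fintype.card_fin, Fintype.card_coe,
    Finset.card_compl, Finset.card_erase_of_mem hv] at h
  have h5 : 1 ≤ V.card := Finset.card_pos.2 ⟨v, hv⟩
  have h6 : V.card ≤ Fintype.card α := Finset.card_le_univ V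
  have e : Fintype.card α - (V.card - 1) = Fintype.card α + 1 - V.card := by omega
  rwa [e] at h

/-- a set of vertices that contains no member of a sparse family, by colouring and deleting -/
theorem exists_indep {α : Type*} [Fintype α] [DecidableEq α] (q : ℕ) (hq : 0 < q)
    (F : Finset (Finset α)) (hF : ∀ V ∈ F, V.Nonempty)
    (hsum : 2 * ∑ V ∈ F, q ^ (Fintype.card α + 1 - V.card) ≤
      Fintype.card α * q ^ (Fintype.card α)) :
    ∃ A : Finset α, Fintype.card α ≤ 2 * q * A.card ∧ ∀ V ∈ F, ¬ V ⊆ A := by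
  classical
  haveI : Nonempty (Fin q) := ⟨⟨0, hq⟩⟩
  -- a colouring with few members of one colour
  have hχ : ∃ χ : α → Fin q,
      2 * (F.filter (fun V => ∀ x ∈ V, ∀ y ∈ V, χ x = χ y)).card ≤ Fintype.card α := by
    by_contra hcon
    push Not at hcon
    have h1 : ∑ χ : α → Fin q, Fintype.card α <
        ∑ χ : α → Fin q, 2 * (F.filter (fun V => ∀ x ∈ V, ∀ y ∈ V, χ x = χ y)).card :=
      Finset.sum_lt_sum_of_nonempty Finset.univ_nonempty (fun χ _ => hcon χ)
    have h2 : ∑ χ : α → Fin q, (F.filter (fun V => ∀ x ∈ V, ∀ y ∈ V, χ x = χ y)).card =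
        ∑ V ∈ F, (Finset.univ.filter
          (fun χ : α → Fin q => ∀ x ∈ V, ∀ y ∈ V, χ x = χ y)).card := by
      simp only [Finset.card_filter]
      rw [Finset.sum_comm]
    have h3 : ∑ V ∈ F, (Finset.univ.filter
          (fun χ : α → Fin q => ∀ x ∈ V, ∀ y ∈ V, χ x = χ y)).card ≤
        ∑ V ∈ F, q ^ (Fintype.card α + 1 - V.card) :=
      Finset.sum_le_sum (fun V hV => card_mono q V (hF V hV))
    rw [← Finset.mul_sum, h2, Finset.sum_const, Finset.card_univ, Fintype.card_fun,
      Fintype.card_fin, smul_eq_mul] at h1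
    have h4 : q ^ Fintype.card α * Fintype.card α = Fintype.card α * q ^ Fintype.card α := by ring
    omega
  obtain ⟨χ, hχ⟩ := hχ
  -- delete one point of each of them
  set Mo := F.filter (fun V => ∀ x ∈ V, ∀ y ∈ V, χ x = χ y) with hMo
  have hrep : ∀ V : Finset α, ∃ x : Option α, ∀ h : V.Nonempty, ∃ z ∈ V, x = some z := by
    intro V
    by_cases h : V.Nonempty
    · obtain ⟨z, hz⟩ := h
      exact ⟨some z, fun _ => ⟨z, hz, rfl⟩⟩
    · exact ⟨none, fun h' => absurd h' h⟩
  choose rep hrep using hrep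
  set Rem : Finset α := Finset.univ.filter (fun x => ∃ V ∈ Mo, rep V = some x) with hRem
  have hRemcard : Rem.card ≤ Mo.card := by
    have h1 : Rem.card = (Rem.image (fun x => some x)).card :=
      (Finset.card_image_of_injective _ (Option.some_injective α)).symm
    have h2 : Rem.image (fun x => some x) ⊆ Mo.image rep := by
      intro o ho
      obtain ⟨x, hx, rfl⟩ := Finset.mem_image.1 ho
      obtain ⟨V, hV, hVx⟩ := (Finset.mem_filter.1 hx).2
      exact Finset.mem_image.2 ⟨V, hV, hVx⟩
    rw [h1]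
    exact (Finset.card_le_card h2).trans Finset.card_image_le
  have hA' : Fintype.card α ≤ 2 * (Remᶜ).card := by
    rw [Finset.card_compl]
    omega
  have hfib : (Remᶜ).card = ∑ c : Fin q, ((Remᶜ).filter (fun x => χ x = c)).card :=
    Finset.card_eq_sum_card_fiberwise (fun x _ => Finset.mem_coe.2 (Finset.mem_univ _))
  have hc : ∃ c : Fin q, Fintype.card α ≤ 2 * q * ((Remᶜ).filter (fun x => χ x = c)).card := by
    by_contra hcon
    push Not at hcon
    have h1 : ∑ c : Fin q, 2 * q * ((Remᶜ).filter (fun x => χ x = c)).card <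
        ∑ c : Fin q, Fintype.card α :=
      Finset.sum_lt_sum_of_nonempty Finset.univ_nonempty (fun c _ => hcon c)
    rw [← Finset.mul_sum, ← hfib, Finset.sum_const, Finset.card_univ, Fintype.card_fin,
      smul_eq_mul] at h1
    have h2 := Nat.mul_le_mul_left q hA'
    have h3 : q * (2 * (Remᶜ).card) = 2 * q * (Remᶜ).card := by ring
    omega
  obtain ⟨c, hc⟩ := hc
  refine ⟨_, hc, fun V hV hsub => ?_⟩
  have hVM : V ∈ Mo := by
    rw [hMo, Finset.mem_filter]
    refine ⟨hV, fun x hx y hy => ?_⟩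
    rw [(Finset.mem_filter.1 (hsub hx)).2, (Finset.mem_filter.1 (hsub hy)).2]
  obtain ⟨z, hz, hzr⟩ := hrep V (hF V hV)
  have h1 := (Finset.mem_filter.1 (hsub hz)).1
  rw [Finset.mem_compl] at h1
  exact h1 (Finset.mem_filter.2 ⟨Finset.mem_univ _, V, hVM, hzr⟩)

/-- some `e` members of a family carry at least the average weight -/
theorem exists_heavy {ι : Type*} [DecidableEq ι] (R : Finset ι) (m : ι → ℕ) (d : ℕ) :
    ∀ e : ℕ, e + d = R.card → ∃ S ⊆ R, S.card = e ∧
      e * ∑ i ∈ R, m i ≤ R.card * ∑ i ∈ S, m i := by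
  induction d with
  | zero =>
    intro e he
    exact ⟨R, Finset.Subset.refl R, by omega, by rw [← he, add_zero]⟩
  | succ d ih =>
    intro e he
    obtain ⟨S, hS, hSc, hSs⟩ := ih (e + 1) (by omega)
    have hne : S.Nonempty := Finset.card_pos.1 (by omega)
    obtain ⟨s, hs, hmin⟩ := Finset.exists_min_image S m hne
    refine ⟨S.erase s, (Finset.erase_subset _ _).trans hS, ?_, ?_⟩
    · rw [Finset.card_erase_of_mem hs, hSc, Nat.add_sub_cancel]
    · have h1 : (e + 1) * m s ≤ ∑ i ∈ S, m i := by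
        calc (e + 1) * m s = ∑ i ∈ S, m s := by rw [Finset.sum_const, hSc, smul_eq_mul]
          _ ≤ ∑ i ∈ S, m i := Finset.sum_le_sum (fun i hi => hmin i hi)
      have h2 : m s + ∑ i ∈ S.erase s, m i = ∑ i ∈ S, m i := Finset.add_sum_erase S m hs
      generalize ∑ i ∈ S, m i = x at h1 h2 hSs
      generalize ∑ i ∈ S.erase s, m i = y at h2 ⊢
      generalize ∑ i ∈ R, m i = z at hSs ⊢
      have h3 : (e + 1) * (e * z) ≤ (e + 1) * (R.card * y) := by
        have h4 : e * x ≤ (e + 1) * y := by nlinarith only [h1, h2]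
        calc (e + 1) * (e * z) = e * ((e + 1) * z) := by ring
          _ ≤ e * (R.card * x) := Nat.mul_le_mul_left _ hSs
          _ = R.card * (e * x) := by ring
          _ ≤ R.card * ((e + 1) * y) := Nat.mul_le_mul_left _ h4
          _ = (e + 1) * (R.card * y) := by ring
      exact Nat.le_of_mul_le_mul_left h3 (Nat.succ_pos e)

end Vale.Agent.P057.H562
end
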