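import Vale.Agent.P057.Bdl.B1
import Mathlib.NumberTheory.Bertrand

set_option linter.all false

section

open Finset Polynomial

namespace Vale.Agent.P057.H562

open Vale.Agent.P057.Lower

/-- binomial coefficients `C(p - 1, i)` modulo a prime `p` -/
theorem choose_pred_mod (p : ℕ) (hp : p.Prime) : ∀ i, i < p →
    (((p - 1).choose i : ℕ) : ZMod p) = (-1) ^ i := by
  intro i
  induction i with
  | zero =>
    intro _
    simp only [Nat.choose_zero_right, Nat.cast_one, pow_zero]
  | succ i ih =>
    intro hi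
    have h1 := ih (by omega)
    have h2 : p ∣ p.choose (i + 1) := hp.dvd_choose_self (Nat.succ_ne_zero i) hi
    have h3 : p.choose (i + 1) = (p - 1).choose i + (p - 1).choose (i + 1) := by
      obtain ⟨m, rfl⟩ : ∃ m, p = m + 1 := ⟨p - 1, by omega⟩
      rw [Nat.add_sub_cancel]
      exact Nat.choose_succ_succ m i
    have h4 : ((p.choose (i + 1) : ℕ) : ZMod p) = 0 := (ZMod.natCast_eq_zero_iff _ _).2 h2
    rw [h3, Nat.cast_add, h1] at h4
    rw [pow_succ]
    linear_combination h4

/-- the signed binomial weights of the difference of order `p - 1` -/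
theorem weight_mod (p : ℕ) (hp : p.Prime) (hp2 : p ≠ 2) (i : ℕ) (hi : i < p) :
    (((-1 : ℤ) ^ (p - 1 - i) * ((p - 1).choose i : ℤ) : ℤ) : ZMod p) = 1 := by
  push_cast
  rw [choose_pred_mod p hp i hi, ← pow_add]
  have e : p - 1 - i + i = p - 1 := by omega
  rw [e]
  have hodd : p % 2 = 1 := hp.eq_two_or_odd.resolve_left hp2
  have heven : Even (p - 1) := by
    rw [Nat.even_iff]
    omega
  exact heven.neg_one_pow

/-- a polynomial of small degree with at most two values on `0, …, k - 1` is constant there,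
if there is a prime between the degree and `k` -/
theorem two_values (P : ℚ[X]) (D k p : ℕ) (hP : P.natDegree ≤ D) (hp : p.Prime)
    (hpD : D + 2 ≤ p) (hpk : p ≤ k) (hp2 : p ≠ 2) (y : ℕ → ℤ)
    (hy : ∀ j < k, P.eval (j : ℚ) = (y j : ℚ))
    (a b : ℤ) (hab : ∀ j < k, y j = a ∨ y j = b) : ∀ i < k, ∀ j < k, y i = y j := by
  have hpos := hp.pos
  have hformula : ∀ u : ℕ → ℤ, (fwdDiff 1)^[p - 1] u 0 =
      ∑ i ∈ Finset.range p, ((-1 : ℤ) ^ (p - 1 - i) * ((p - 1).choose i : ℤ)) * u i := by
    intro u
    rw [fwdDiff_iter_eq_sum_shift]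
    have e : p - 1 + 1 = p := by omega
    rw [e]
    apply Finset.sum_congr rfl
    intro i _
    rw [smul_eq_mul, zero_add, smul_eq_mul, mul_one]
  have hzero : ∀ (Q : ℚ[X]) (u : ℕ → ℤ), Q.natDegree ≤ p - 2 →
      (∀ j < k, Q.eval (j : ℚ) = (u j : ℚ)) → (fwdDiff 1)^[p - 1] u 0 = 0 := by
    intro Q u hQ hu
    have h := diff_poly_succ Q (p - 2) k hQ u hu 0 (by omega)
    have e : p - 2 + 1 = p - 1 := by omega
    rwa [e] at h
  have h1 := hzero P y (by omega) hy
  have h2 := hzero (C 1) (fun _ => 1) (by rw [natDegree_C]; omega) (by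
    intro j _
    rw [eval_C]
    norm_num)
  rw [hformula] at h1 h2
  simp only [mul_one] at h2
  -- a constant value below `p` is a constant value below `k`
  have hroots : ∀ c : ℤ, (∀ i < p, y i = c) → ∀ i < k, ∀ j < k, y i = y j := by
    intro c hc
    have hPc : P = C (c : ℚ) := by
      apply Polynomial.eq_of_natDegree_lt_card_of_eval_eq (f := fun j : Fin p => ((j : ℕ) : ℚ))
      · intro i j hij
        have hij' : ((i : ℕ) : ℚ) = ((j : ℕ) : ℚ) := hij
        exact Fin.ext (by exact_mod_cast hij')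
      · intro i
        rw [hy i (by omega), eval_C, hc i i.2]
      · simp only [natDegree_C, Fintype.card_fin]
        omega
    have hall : ∀ i < k, y i = c := by
      intro i hi
      have := hy i hi
      rw [hPc, eval_C] at this
      exact_mod_cast this.symm
    intro i hi j hj
    rw [hall i hi, hall j hj]
  by_cases hne : a = b
  · apply hroots a
    intro i hi
    rcases hab i (by omega) with h' | h'
    · exact h'
    · rw [h', hne]
  have h3 : (b - a) * ∑ i ∈ (Finset.range p).filter (fun i => y i = b),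
      ((-1 : ℤ) ^ (p - 1 - i) * ((p - 1).choose i : ℤ)) = 0 := by
    rw [Finset.sum_filter, Finset.mul_sum]
    have h4 : ∀ i ∈ Finset.range p, (b - a) *
        (if y i = b then ((-1 : ℤ) ^ (p - 1 - i) * ((p - 1).choose i : ℤ)) else 0) =
        ((-1 : ℤ) ^ (p - 1 - i) * ((p - 1).choose i : ℤ)) * y i -
          a * ((-1 : ℤ) ^ (p - 1 - i) * ((p - 1).choose i : ℤ)) := by
      intro i hi
      have hi' := Finset.mem_range.1 hi
      rcases hab i (by omega) with h' | h'
      · rw [h', if_neg hne]
        ring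
      · rw [h', if_pos rfl]
        ring
    rw [Finset.sum_congr rfl h4, Finset.sum_sub_distrib, h1, ← Finset.mul_sum, h2]
    ring
  have h4 : ∑ i ∈ (Finset.range p).filter (fun i => y i = b),
      ((-1 : ℤ) ^ (p - 1 - i) * ((p - 1).choose i : ℤ)) = 0 := by
    rcases mul_eq_zero.1 h3 with h | h
    · exact absurd (by linarith only [h]) hne
    · exact h
  have h5 : ((((Finset.range p).filter (fun i => y i = b)).card : ℕ) : ZMod p) = 0 := by
    have h6 : ((∑ i ∈ (Finset.range p).filter (fun i => y i = b),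
        ((-1 : ℤ) ^ (p - 1 - i) * ((p - 1).choose i : ℤ)) : ℤ) : ZMod p) = 0 := by
      rw [h4, Int.cast_zero]
    rw [Int.cast_sum] at h6
    rw [Finset.sum_congr rfl (fun i hi => weight_mod p hp hp2 i
      (Finset.mem_range.1 (Finset.mem_filter.1 hi).1)), Finset.sum_const, nsmul_eq_mul,
      mul_one] at h6
    exact h6
  rw [ZMod.natCast_eq_zero_iff] at h5
  rcases Nat.eq_zero_or_pos ((Finset.range p).filter (fun i => y i = b)).card with h7 | h7
  · apply hroots a
    intro i hi
    rw [Finset.card_eq_zero] at h7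
    rcases hab i (by omega) with h' | h'
    · exact h'
    · exfalso
      have : i ∈ (Finset.range p).filter (fun i => y i = b) :=
        Finset.mem_filter.2 ⟨Finset.mem_range.2 hi, h'⟩
      rw [h7] at this
      exact Finset.notMem_empty _ this
  · have h8 := Nat.le_of_dvd h7 h5
    have h9 : (Finset.range p).filter (fun i => y i = b) = Finset.range p := by
      apply Finset.eq_of_subset_of_card_le (Finset.filter_subset _ _)
      rw [Finset.card_range]
      exact h8
    apply hroots b
    intro i hi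
    have : i ∈ (Finset.range p).filter (fun i => y i = b) := by
      rw [h9]
      exact Finset.mem_range.2 hi
    exact (Finset.mem_filter.1 this).2

/-- a polynomial that is constant on `0, …, k - 1` and of degree below `k` has degree zero -/
theorem const_deg (P : ℚ[X]) (k : ℕ) (hP : P.natDegree < k) (c : ℚ)
    (hc : ∀ j < k, P.eval (j : ℚ) = c) : P.natDegree = 0 := by
  have hPc : P = C c := by
    apply Polynomial.eq_of_natDegree_lt_card_of_eval_eq (f := fun j : Fin k => ((j : ℕ) : ℚ))
    · intro i j hij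
      have hij' : ((i : ℕ) : ℚ) = ((j : ℕ) : ℚ) := hij
      exact Fin.ext (by exact_mod_cast hij')
    · intro i
      rw [hc i i.2, eval_C]
    · simp only [natDegree_C, Fintype.card_fin]
      omega
  rw [hPc, natDegree_C]

/-- Bertrand's postulate, in the form needed for progressions of length a power of two -/
theorem prime_between (n : ℕ) (hn : 3 ≤ n) :
    ∃ p : ℕ, p.Prime ∧ 2 ^ (n - 1) + 2 ≤ p ∧ p ≤ 2 ^ n := by
  have e : 2 ^ n = 2 * 2 ^ (n - 1) := by
    rw [← pow_succ']
    congr 1
    omega
  have h4 : 4 ≤ 2 ^ (n - 1) := by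
    calc 4 = 2 ^ 2 := by norm_num
      _ ≤ 2 ^ (n - 1) := Nat.pow_le_pow_right (by norm_num) (by omega)
  -- powers of two of odd exponent are 2 modulo 3
  have hodd : ∀ m : ℕ, 2 ^ (2 * m + 1) % 3 = 2 := by
    intro m
    induction m with
    | zero => norm_num
    | succ m ih =>
      have : 2 ^ (2 * (m + 1) + 1) = 4 * 2 ^ (2 * m + 1) := by ring
      rw [this]
      omega
  by_cases hD : (2 ^ (n - 1) + 1).Prime
  · obtain ⟨p, hp, hp1, hp2⟩ := Nat.exists_prime_lt_and_le_two_mul (2 ^ (n - 1) + 1) (by omega)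
    refine ⟨p, hp, by omega, ?_⟩
    -- `n - 1` is even, hence `n` is odd and 3 divides `2 ^ n + 1`
    have hn1 : (n - 1) % 2 = 0 := by
      by_contra hcon
      obtain ⟨m, hm⟩ : ∃ m, n - 1 = 2 * m + 1 := ⟨(n - 1) / 2, by omega⟩
      have h5 := hodd m
      rw [← hm] at h5
      have h6 : 3 ∣ 2 ^ (n - 1) + 1 := by omega
      have h7 := (Nat.prime_dvd_prime_iff_eq Nat.prime_three hD).1 h6
      omega
    obtain ⟨m, hm⟩ : ∃ m, n = 2 * m + 1 := ⟨n / 2, by omega⟩
    have h5 := hodd m
    rw [← hm] at h5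
    have h6 : p ≠ 2 ^ n + 1 := by
      intro h
      have h7 : 3 ∣ p := by omega
      have h8 := (Nat.prime_dvd_prime_iff_eq Nat.prime_three hp).1 h7
      omega
    have h7 : p ≠ 2 ^ n + 2 := by
      intro h
      have h8 : 2 ∣ p := by omega
      have h9 := (Nat.prime_dvd_prime_iff_eq Nat.prime_two hp).1 h8
      omega
    omega
  · obtain ⟨p, hp, hp1, hp2⟩ := Nat.exists_prime_lt_and_le_two_mul (2 ^ (n - 1)) (by omega)
    refine ⟨p, hp, ?_, by omega⟩
    have h5 : p ≠ 2 ^ (n - 1) + 1 := by
      intro h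
      rw [h] at hp
      exact hD hp
    omega

end Vale.Agent.P057.H562
end
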