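import Vale.Agent.P057.H562.Col
import Vale.Agent.P057.H562.Two

set_option linter.all false

section

open Finset Polynomial

namespace Vale.Agent.P057.H562

open Vale.Agent.P057.Lower

/-- the value sets on `0, …, k - 1` of polynomials of degree `D` with values below `N` -/
def IsVal (k D N : ℕ) (V : Finset (Fin N)) : Prop :=
  ∃ P : ℚ[X], P.natDegree = D ∧ ∃ y : Fin k → Fin N,
    (∀ j : Fin k, P.eval ((j : ℕ) : ℚ) = (((y j : Fin N) : ℕ) : ℚ)) ∧
    V = Finset.univ.image y

/-- the value sets with a given pattern of equal values -/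
def IsPat (k D N : ℕ) (π : Fin k → Fin k) (V : Finset (Fin N)) : Prop :=
  ∃ P : ℚ[X], P.natDegree = D ∧ ∃ y : Fin k → Fin N,
    (∀ j : Fin k, P.eval ((j : ℕ) : ℚ) = (((y j : Fin N) : ℕ) : ℚ)) ∧
    V = Finset.univ.image y ∧ (∀ j, y (π j) = y j) ∧
    V.card = (Finset.univ.image π).card

/-- the values on the classes in `S` determine a polynomial with the pattern `π` -/
def Det (k D : ℕ) (π : Fin k → Fin k) (S : Finset (Fin k)) : Prop :=
  ∀ Q : ℚ[X], Q.natDegree ≤ D → (∀ j : Fin k, ∃ z : ℤ, Q.eval ((j : ℕ) : ℚ) = (z : ℚ)) →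
    (∀ j : Fin k, Q.eval (((π j : Fin k) : ℕ) : ℚ) = Q.eval ((j : ℕ) : ℚ)) →
    (∀ j : Fin k, π j ∈ S → Q.eval ((j : ℕ) : ℚ) = 0) →
    ∀ j : Fin k, Q.eval ((j : ℕ) : ℚ) = 0

/-- the conditions on a pattern and a set of classes -/
def PatOk (k D m : ℕ) (q : (Fin k → Fin k) × Finset (Fin k)) : Prop :=
  m * q.2.card ≤ m + (m - 1) * ((Finset.univ.image q.1).card - 1) ∧
  2 ≤ (Finset.univ.image q.1).card ∧ Det k D q.1 q.2

open Classical in
theorem card_pat (k D N : ℕ) (π : Fin k → Fin k) (S : Finset (Fin k)) (hdet : Det k D π S) :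
    (Finset.univ.filter (fun V : Finset (Fin N) => IsPat k D N π V)).card ≤ N ^ S.card := by
  rw [← Fintype.card_subtype]
  have hall : ∀ V : {V : Finset (Fin N) // IsPat k D N π V}, IsPat k D N π V.1 :=
    fun V => V.2
  choose P hP y hy hV hπ hc using hall
  have hinj : Function.Injective
      (fun (V : {V : Finset (Fin N) // IsPat k D N π V}) (s : S) => y V s) := by
    intro V W hVW
    have hev : ∀ j : Fin k, (P V - P W).eval ((j : ℕ) : ℚ) =
        (((y V j : Fin N) : ℕ) : ℚ) - (((y W j : Fin N) : ℕ) : ℚ) := by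
      intro j
      rw [eval_sub, hy V j, hy W j]
    have h1 : ∀ j : Fin k, (P V - P W).eval ((j : ℕ) : ℚ) = 0 := by
      apply hdet
      · refine (natDegree_sub_le _ _).trans ?_
        rw [hP V, hP W, max_self]
      · intro j
        refine ⟨(((y V j : Fin N) : ℕ) : ℤ) - (((y W j : Fin N) : ℕ) : ℤ), ?_⟩
        rw [hev j]
        push_cast
        rfl
      · intro j
        rw [hev (π j), hev j, hπ V j, hπ W j]
      · intro j hj
        have h2 := congrFun hVW ⟨π j, hj⟩
        have h3 : y V (π j) = y W (π j) := h2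
        rw [hπ V j, hπ W j] at h3
        rw [hev j, h3, sub_self]
    apply Subtype.ext
    rw [hV V, hV W]
    congr 1
    funext j
    have h3 := h1 j
    rw [hev j, sub_eq_zero] at h3
    exact Fin.ext (by exact_mod_cast h3)
  have h := Fintype.card_le_of_injective _ hinj
  rwa [Fintype.card_fun, Fintype.card_fin, Fintype.card_coe] at h

/-- at least three values -/
theorem three_le (k D N p : ℕ) (hD : 1 ≤ D) (hp : p.Prime) (hpD : D + 2 ≤ p) (hpk : p ≤ k)
    (V : Finset (Fin N)) (hV : IsVal k D N V) : 3 ≤ V.card := by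
  classical
  obtain ⟨P, hP, y, hy, rfl⟩ := hV
  by_contra hcon
  push Not at hcon
  have hk : 0 < k := by omega
  have hmem : ∀ j, y j ∈ Finset.univ.image y :=
    fun j => Finset.mem_image_of_mem _ (Finset.mem_univ j)
  have hpos : 0 < (Finset.univ.image y).card := Finset.card_pos.2 ⟨_, hmem ⟨0, hk⟩⟩
  have hab : ∃ a b : Fin N, ∀ j, y j = a ∨ y j = b := by
    have h12 : (Finset.univ.image y).card = 1 ∨ (Finset.univ.image y).card = 2 := by omega
    rcases h12 with h | h
    · obtain ⟨a, ha⟩ := Finset.card_eq_one.1 h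
      refine ⟨a, a, fun j => Or.inl ?_⟩
      have := hmem j
      rw [ha, Finset.mem_singleton] at this
      exact this
    · obtain ⟨a, b, _, hab⟩ := Finset.card_eq_two.1 h
      refine ⟨a, b, fun j => ?_⟩
      have := hmem j
      rw [hab, Finset.mem_insert, Finset.mem_singleton] at this
      exact this
  obtain ⟨a, b, hab⟩ := hab
  have hval : ∀ j < k, P.eval (j : ℚ) =
      (((if h : j < k then (((y ⟨j, h⟩ : Fin N) : ℕ) : ℤ) else 0) : ℤ) : ℚ) := by
    intro j hj
    have := hy ⟨j, hj⟩
    simp only [dif_pos hj]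
    push_cast
    exact this
  have hconst := two_values P D k p hP.le hp hpD hpk (by omega)
    (fun j => if h : j < k then (((y ⟨j, h⟩ : Fin N) : ℕ) : ℤ) else 0) hval
    ((a : ℕ) : ℤ) ((b : ℕ) : ℤ) (by
      intro j hj
      simp only [dif_pos hj]
      rcases hab ⟨j, hj⟩ with h | h
      · left; rw [h]
      · right; rw [h])
  have hdeg := const_deg P k (by omega)
    (((if h : 0 < k then (((y ⟨0, h⟩ : Fin N) : ℕ) : ℤ) else 0) : ℤ) : ℚ) (by
      intro j hj
      rw [hval j hj, hconst j hj 0 hk])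
  omega

/-- all classes but one determine the polynomial -/
theorem det_erase (k D p : ℕ) (hp : p.Prime) (hD : 1 ≤ D) (hpD : D + 2 ≤ p) (hpk : p ≤ k)
    (π : Fin k → Fin k) (c : Fin k) (hc : ∃ j0, π j0 ≠ c) :
    Det k D π ((Finset.univ.image π).erase c) := by
  intro Q hQ hint hπ hS
  have hzero : ∀ j : Fin k, π j ≠ c → Q.eval ((j : ℕ) : ℚ) = 0 := by
    intro j hj
    exact hS j (Finset.mem_erase.2 ⟨hj, Finset.mem_image_of_mem _ (Finset.mem_univ j)⟩)
  choose z hz using hint
  have hval : ∀ j < k, Q.eval (j : ℚ) =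
      (((if h : j < k then z ⟨j, h⟩ else 0) : ℤ) : ℚ) := by
    intro j hj
    simp only [dif_pos hj]
    exact hz ⟨j, hj⟩
  have hconst := two_values Q D k p hQ hp hpD hpk (by omega)
    (fun j => if h : j < k then z ⟨j, h⟩ else 0) hval 0 (z c) (by
      intro j hj
      simp only [dif_pos hj]
      by_cases h : π ⟨j, hj⟩ = c
      · right
        have h1 := hπ ⟨j, hj⟩
        rw [h, hz c, hz ⟨j, hj⟩] at h1
        exact_mod_cast h1.symm
      · left
        have h1 := hzero ⟨j, hj⟩ h
        rw [hz ⟨j, hj⟩] at h1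
        exact_mod_cast h1)
  obtain ⟨j0, hj0⟩ := hc
  intro j
  have h1 := hconst j j.2 j0 j0.2
  have h2 := hval j j.2
  have h3 := hval j0 j0.2
  have h4 := hzero j0 hj0
  rw [h2]
  rw [h3] at h4
  have h5 : (if h : (j0 : ℕ) < k then z ⟨j0, h⟩ else 0) = 0 := by exact_mod_cast h4
  have h6 : (if h : (j : ℕ) < k then z ⟨j, h⟩ else 0) = 0 := by
    have h7 : (if h : (j : ℕ) < k then z ⟨j, h⟩ else 0) =
        (if h : (j0 : ℕ) < k then z ⟨j0, h⟩ else 0) := h1
    rw [h7, h5]
  rw [h6]
  norm_num

/-- classes that cover more than `D` indices determine the polynomial -/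
theorem det_large (k D : ℕ) (π : Fin k → Fin k) (S : Finset (Fin k))
    (hS : D < (Finset.univ.filter (fun j => π j ∈ S)).card) : Det k D π S := by
  classical
  intro Q hQ _ _ hzero
  have h2 : Q = 0 := by
    apply Polynomial.eq_of_natDegree_lt_card_of_eval_eq
      (f := fun j : (Finset.univ.filter (fun j => π j ∈ S) : Finset (Fin k)) =>
        (((j : Fin k) : ℕ) : ℚ))
    · intro i j hij
      have hij' : (((i : Fin k) : ℕ) : ℚ) = (((j : Fin k) : ℕ) : ℚ) := hij
      exact Subtype.ext (Fin.ext (by exact_mod_cast hij'))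
    · intro i
      rw [hzero i (Finset.mem_filter.1 i.2).2, eval_zero]
    · rw [Fintype.card_coe, natDegree_zero]
      omega
  intro j
  rw [h2, eval_zero]

/-- every value set has a pattern -/
theorem exists_pattern (k D m N p : ℕ) (hm : 3 ≤ m) (hD : 1 ≤ D) (hp : p.Prime)
    (hpD : D + 2 ≤ p) (hpk : p ≤ k) (hkm : (m + 2) * D < m * k) (V : Finset (Fin N))
    (hV : IsVal k D N V) (h3 : 3 ≤ V.card) :
    ∃ q : (Fin k → Fin k) × Finset (Fin k), PatOk k D m q ∧ IsPat k D N q.1 V := by
  classical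
  obtain ⟨P, hP, y, hy, rfl⟩ := hV
  have hk : 0 < k := by omega
  haveI : Nonempty (Fin k) := ⟨⟨0, hk⟩⟩
  set π : Fin k → Fin k := fun j => Function.invFun y (y j) with hπ
  have hyπ : ∀ j, y (π j) = y j := fun j => Function.invFun_eq ⟨j, rfl⟩
  have hcard : (Finset.univ.image y).card = (Finset.univ.image π).card := by
    have h1 : Finset.univ.image π = (Finset.univ.image y).image (Function.invFun y) := by
      rw [Finset.image_image]
      rfl
    rw [h1]
    refine (Finset.card_image_of_injOn ?_).symm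
    intro c hc c' hc' hcc
    obtain ⟨j, _, rfl⟩ := Finset.mem_image.1 (Finset.mem_coe.1 hc)
    obtain ⟨j', _, rfl⟩ := Finset.mem_image.1 (Finset.mem_coe.1 hc')
    have h2 : y (Function.invFun y (y j)) = y j := Function.invFun_eq ⟨j, rfl⟩
    have h3 : y (Function.invFun y (y j')) = y j' := Function.invFun_eq ⟨j', rfl⟩
    rw [← h2, ← h3]
    have hcc' : Function.invFun y (y j) = Function.invFun y (y j') := hcc
    rw [hcc']
  set v := (Finset.univ.image π).card with hv
  rw [hcard] at h3
  rcases Nat.lt_or_ge (m + 1) v with hmv | hmv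
  · -- many classes: take the heaviest ones
    obtain ⟨S, hS, hSc, hSs⟩ := exists_heavy (Finset.univ.image π)
      (fun s => (Finset.univ.filter (fun j => π j = s)).card)
      (v - ((m - 1) * (v - 1) / m + 1)) ((m - 1) * (v - 1) / m + 1) (by
        have h1 : (m - 1) * (v - 1) / m ≤ v - 1 := by
          rw [Nat.div_le_iff_le_mul_add_pred (by omega)]
          have : (m - 1) * (v - 1) ≤ m * (v - 1) := Nat.mul_le_mul_right _ (by omega)
          omega
        omega)
    have hk1 : ∑ s ∈ Finset.univ.image π, (Finset.univ.filter (fun j => π j = s)).card = k := by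
      rw [← Finset.card_eq_sum_card_image, Finset.card_univ, Fintype.card_fin]
    have hk2 : ∑ s ∈ S, (Finset.univ.filter (fun j => π j = s)).card =
        (Finset.univ.filter (fun j => π j ∈ S)).card := by
      rw [Finset.card_eq_sum_card_fiberwise (f := π)
        (s := Finset.univ.filter (fun j => π j ∈ S))
        (t := S) (fun j hj => Finset.mem_coe.2 (Finset.mem_filter.1 (Finset.mem_coe.1 hj)).2)]
      apply Finset.sum_congr rfl
      intro s hs
      congr 1
      ext j
      rw [Finset.mem_filter, Finset.mem_filter, Finset.mem_filter]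
      constructor
      · rintro ⟨h1, h2⟩
        exact ⟨⟨h1, by rw [h2]; exact hs⟩, h2⟩
      · rintro ⟨⟨h1, _⟩, h2⟩
        exact ⟨h1, h2⟩
    rw [hk1, hk2, ← hv] at hSs
    set e := (m - 1) * (v - 1) / m + 1 with he
    have he1 : (m - 1) * (v - 1) < m * e := Nat.lt_mul_div_succ _ (by omega)
    have he2 : m * e ≤ m + (m - 1) * (v - 1) := by
      have := Nat.mul_div_le ((m - 1) * (v - 1)) m
      rw [he, Nat.mul_add, mul_one]
      omega
    have hem : m * v ≤ e * (m + 2) := by
      obtain ⟨t, rfl⟩ : ∃ t, m = t + 3 := ⟨m - 3, by omega⟩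
      obtain ⟨w, hw⟩ : ∃ w, v = t + 5 + w := ⟨v - (t + 5), by omega⟩
      have e1 : t + 3 - 1 = t + 2 := by omega
      have e2 : v - 1 = t + 4 + w := by omega
      rw [e1, e2] at he1
      rw [hw]
      have h6 : (t + 3) * ((t + 3) * (t + 5 + w)) ≤ (t + 3) * (e * (t + 3 + 2)) := by
        have h7 : ((t + 2) * (t + 4 + w) + 1) * (t + 5) ≤ ((t + 3) * e) * (t + 5) :=
          Nat.mul_le_mul_right _ he1
        have h8 : (t + 3) * ((t + 3) * (t + 5 + w)) ≤ ((t + 2) * (t + 4 + w) + 1) * (t + 5) := by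
          nlinarith only [Nat.zero_le (t * w), Nat.zero_le w]
        calc (t + 3) * ((t + 3) * (t + 5 + w)) ≤ ((t + 2) * (t + 4 + w) + 1) * (t + 5) := h8
          _ ≤ ((t + 3) * e) * (t + 5) := h7
          _ = (t + 3) * (e * (t + 3 + 2)) := by ring
      exact Nat.le_of_mul_le_mul_left h6 (by omega)
    refine ⟨(π, S), ⟨?_, ?_, ?_⟩, P, hP, y, hy, rfl, hyπ, hcard⟩
    · show m * S.card ≤ m + (m - 1) * ((Finset.univ.image π).card - 1)
      rw [hSc, ← hv]
      exact he2
    · show 2 ≤ (Finset.univ.image π).card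
      omega
    · apply det_large
      by_contra hcon
      push Not at hcon
      have h5 : e * k ≤ v * D := hSs.trans (Nat.mul_le_mul_left _ hcon)
      have hepos : 0 < e := Nat.succ_pos _
      have h6 : e * ((m + 2) * D) < e * (m * k) := Nat.mul_lt_mul_of_pos_left hkm hepos
      have h7 : m * v * D ≤ e * (m + 2) * D := Nat.mul_le_mul_right _ hem
      have h8 : m * (e * k) ≤ m * (v * D) := Nat.mul_le_mul_left _ h5
      have e3 : e * ((m + 2) * D) = e * (m + 2) * D := by ring
      have e4 : e * (m * k) = m * (e * k) := by ring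
      have e5 : m * (v * D) = m * v * D := by ring
      omega
  · -- few classes: leave out one class
    obtain ⟨c, hc⟩ : ∃ c, c ∈ Finset.univ.image π :=
      Finset.card_pos.1 (by omega : 0 < (Finset.univ.image π).card)
    have hother : ∃ j0, π j0 ≠ c := by
      by_contra hcon
      push Not at hcon
      have h1 : Finset.univ.image π ⊆ {c} := by
        intro x hx
        obtain ⟨j, _, rfl⟩ := Finset.mem_image.1 hx
        rw [Finset.mem_singleton]
        exact hcon j
      have h2 := Finset.card_le_card h1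
      rw [Finset.card_singleton, ← hv] at h2
      omega
    refine ⟨(π, (Finset.univ.image π).erase c), ⟨?_, ?_, det_erase k D p hp hD hpD hpk π c hother⟩,
      P, hP, y, hy, rfl, hyπ, hcard⟩
    · show m * ((Finset.univ.image π).erase c).card ≤
        m + (m - 1) * ((Finset.univ.image π).card - 1)
      rw [Finset.card_erase_of_mem hc, ← hv]
      obtain ⟨t, rfl⟩ : ∃ t, m = t + 1 := ⟨m - 1, by omega⟩
      rw [Nat.add_sub_cancel]
      have : v - 1 ≤ t + 1 := by omega
      nlinarith only [this]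
    · show 2 ≤ (Finset.univ.image π).card
      omega

/-- the number of colours, relative to `M ^ (m - 1)` -/
def colC (k : ℕ) : ℕ := 2 * (k ^ k * 2 ^ k)

theorem colC_pos (k : ℕ) (hk : 0 < k) : 0 < colC k := by
  unfold colC
  positivity

theorem sum_biUnion_le_nat {α β : Type*} [DecidableEq α] [DecidableEq β] (s : Finset α)
    (t : α → Finset β) (f : β → ℕ) :
    ∑ x ∈ s.biUnion t, f x ≤ ∑ a ∈ s, ∑ x ∈ t a, f x := by
  induction s using Finset.induction_on with
  | empty => simp only [Finset.biUnion_empty, Finset.sum_empty, le_refl]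
  | insert a s ha ih =>
    rw [Finset.biUnion_insert, Finset.sum_insert ha]
    have h1 := Finset.sum_union_inter (s₁ := t a) (s₂ := s.biUnion t) (f := f)
    omega

open Classical in
theorem sum_vals (k D m M p : ℕ) (hm : 3 ≤ m) (hM : 0 < M) (hD : 1 ≤ D)
    (hkm : (m + 2) * D < m * k) (hp : p.Prime) (hpD : D + 2 ≤ p) (hpk : p ≤ k) :
    2 * ∑ V ∈ Finset.univ.filter (fun V : Finset (Fin (M ^ m)) => IsVal k D (M ^ m) V),
      (colC k * M ^ (m - 1)) ^ (Fintype.card (Fin (M ^ m)) + 1 - V.card) ≤
      Fintype.card (Fin (M ^ m)) *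
        (colC k * M ^ (m - 1)) ^ (Fintype.card (Fin (M ^ m))) := by
  have hk : 0 < k := by omega
  have hC := colC_pos k hk
  set Q : ℕ := colC k * M ^ (m - 1) with hQ
  have hQpos : 0 < Q := by
    rw [hQ]
    positivity
  set N : ℕ := M ^ m with hN
  rw [Fintype.card_fin]
  have hcov : Finset.univ.filter (fun V : Finset (Fin N) => IsVal k D N V) ⊆
      (Finset.univ.filter (fun q : (Fin k → Fin k) × Finset (Fin k) => PatOk k D m q)).biUnion
        (fun q => Finset.univ.filter (fun V : Finset (Fin N) => IsPat k D N q.1 V)) := by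
    intro V hV
    have h1 := (Finset.mem_filter.1 hV).2
    obtain ⟨q, hq1, hq2⟩ := exists_pattern k D m N p hm hD hp hpD hpk hkm V h1
      (three_le k D N p hD hp hpD hpk V h1)
    exact Finset.mem_biUnion.2 ⟨q, Finset.mem_filter.2 ⟨Finset.mem_univ _, hq1⟩,
      Finset.mem_filter.2 ⟨Finset.mem_univ _, hq2⟩⟩
  have h1 : ∑ V ∈ Finset.univ.filter (fun V : Finset (Fin N) => IsVal k D N V),
      Q ^ (N + 1 - V.card) ≤
      ∑ q ∈ Finset.univ.filter (fun q : (Fin k → Fin k) × Finset (Fin k) => PatOk k D m q),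
        ∑ V ∈ Finset.univ.filter (fun V : Finset (Fin N) => IsPat k D N q.1 V),
          Q ^ (N + 1 - V.card) :=
    (Finset.sum_le_sum_of_subset hcov).trans (sum_biUnion_le_nat _ _ _)
  have h2 : ∀ q ∈ Finset.univ.filter
      (fun q : (Fin k → Fin k) × Finset (Fin k) => PatOk k D m q),
      colC k * ∑ V ∈ Finset.univ.filter (fun V : Finset (Fin N) => IsPat k D N q.1 V),
          Q ^ (N + 1 - V.card) ≤ N * Q ^ N := by
    intro q hq
    obtain ⟨hq1, hq2, hq3⟩ := (Finset.mem_filter.1 hq).2
    set v := (Finset.univ.image q.1).card with hv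
    have h3 : ∑ V ∈ Finset.univ.filter (fun V : Finset (Fin N) => IsPat k D N q.1 V),
        Q ^ (N + 1 - V.card) =
        (Finset.univ.filter (fun V : Finset (Fin N) => IsPat k D N q.1 V)).card *
          Q ^ (N + 1 - v) := by
      rw [Finset.sum_congr rfl (g := fun _ => Q ^ (N + 1 - v)), Finset.sum_const, smul_eq_mul]
      intro V hV
      obtain ⟨P, _, y, _, _, _, hc⟩ := (Finset.mem_filter.1 hV).2
      rw [hc]
    rw [h3]
    rcases Finset.eq_empty_or_nonempty
      (Finset.univ.filter (fun V : Finset (Fin N) => IsPat k D N q.1 V)) with he | hne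
    · rw [he, Finset.card_empty, zero_mul, mul_zero]
      exact Nat.zero_le _
    · have hvN : v ≤ N := by
        obtain ⟨V, hV⟩ := hne
        obtain ⟨P, _, y, _, _, _, hc⟩ := (Finset.mem_filter.1 hV).2
        rw [hv, ← hc]
        have := Finset.card_le_univ V
        rwa [Fintype.card_fin] at this
      have h4 := card_pat k D N q.1 q.2 hq3
      have h5 : N ^ q.2.card ≤ N * (M ^ (m - 1)) ^ (v - 1) := by
        rw [hN, ← pow_mul, ← pow_mul, ← pow_add]
        exact Nat.pow_le_pow_right hM hq1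
      have h6 : Q ^ N = Q ^ (N + 1 - v) * (colC k ^ (v - 1) * (M ^ (m - 1)) ^ (v - 1)) := by
        rw [← mul_pow, ← hQ, ← pow_add]
        congr 1
        omega
      have h7 : colC k ≤ colC k ^ (v - 1) := by
        calc colC k = colC k ^ 1 := (pow_one _).symm
          _ ≤ colC k ^ (v - 1) := Nat.pow_le_pow_right hC (by omega)
      calc colC k * ((Finset.univ.filter
              (fun V : Finset (Fin N) => IsPat k D N q.1 V)).card * Q ^ (N + 1 - v))
          ≤ colC k ^ (v - 1) * ((N * (M ^ (m - 1)) ^ (v - 1)) * Q ^ (N + 1 - v)) :=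
            Nat.mul_le_mul h7 (Nat.mul_le_mul_right _ (h4.trans h5))
        _ = N * Q ^ N := by
            rw [h6]
            ring
  have h3 : colC k * ∑ q ∈ Finset.univ.filter
      (fun q : (Fin k → Fin k) × Finset (Fin k) => PatOk k D m q),
        ∑ V ∈ Finset.univ.filter (fun V : Finset (Fin N) => IsPat k D N q.1 V),
          Q ^ (N + 1 - V.card) ≤ (k ^ k * 2 ^ k) * (N * Q ^ N) := by
    rw [Finset.mul_sum]
    refine (Finset.sum_le_sum h2).trans ?_
    rw [Finset.sum_const, smul_eq_mul]
    apply Nat.mul_le_mul_right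
    refine (Finset.card_filter_le _ _).trans ?_
    rw [Finset.card_univ, Fintype.card_prod, Fintype.card_fun, Fintype.card_finset,
      Fintype.card_fin]
  have h4 : colC k * (2 * ∑ V ∈ Finset.univ.filter (fun V : Finset (Fin N) => IsVal k D N V),
      Q ^ (N + 1 - V.card)) ≤ colC k * (N * Q ^ N) := by
    calc colC k * (2 * ∑ V ∈ Finset.univ.filter (fun V : Finset (Fin N) => IsVal k D N V),
          Q ^ (N + 1 - V.card))
        = 2 * (colC k * ∑ V ∈ Finset.univ.filter (fun V : Finset (Fin N) => IsVal k D N V),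
          Q ^ (N + 1 - V.card)) := by ring
      _ ≤ 2 * ((k ^ k * 2 ^ k) * (N * Q ^ N)) :=
          Nat.mul_le_mul_left _ ((Nat.mul_le_mul_left _ h1).trans h3)
      _ = colC k * (N * Q ^ N) := by
          unfold colC
          ring
  exact Nat.le_of_mul_le_mul_left h4 hC

/-- a set without progressions of degree `D`, of size about `N ^ (1 / m)` -/
theorem exists_free (k D m M p : ℕ) (hm : 3 ≤ m) (hM : 0 < M) (hD : 1 ≤ D)
    (hkm : (m + 2) * D < m * k) (hp : p.Prime) (hpD : D + 2 ≤ p) (hpk : p ≤ k) :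
    ∃ A : Finset ℤ, A ⊆ Finset.Ico 0 ((M ^ m : ℕ) : ℤ) ∧ Free k D A ∧
      M ≤ 2 * colC k * A.card := by
  classical
  have hk : 0 < k := by omega
  have hC := colC_pos k hk
  obtain ⟨A, hA1, hA2⟩ := exists_indep (α := Fin (M ^ m)) (colC k * M ^ (m - 1)) (by positivity)
    (Finset.univ.filter (fun V : Finset (Fin (M ^ m)) => IsVal k D (M ^ m) V))
    (by
      intro V hV
      have := three_le k D (M ^ m) p hD hp hpD hpk V (Finset.mem_filter.1 hV).2
      exact Finset.card_pos.1 (by omega))
    (sum_vals k D m M p hm hM hD hkm hp hpD hpk)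
  refine ⟨A.image (fun x : Fin (M ^ m) => ((x : ℕ) : ℤ)), ?_, ?_, ?_⟩
  · intro a ha
    obtain ⟨x, _, rfl⟩ := Finset.mem_image.1 ha
    rw [Finset.mem_Ico]
    have := x.2
    constructor
    · positivity
    · exact_mod_cast this
  · intro P hP
    by_contra hcon
    push Not at hcon
    have h1 : ∀ j : Fin k, ∃ x : Fin (M ^ m), x ∈ A ∧
        P.eval ((j : ℕ) : ℚ) = ((x : ℕ) : ℚ) := by
      intro j
      obtain ⟨a, ha, hPa⟩ := hcon j j.2
      obtain ⟨x, hx, rfl⟩ := Finset.mem_image.1 ha
      refine ⟨x, hx, ?_⟩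
      rw [hPa]
      push_cast
      rfl
    choose y hyA hy using h1
    apply hA2 (Finset.univ.image y)
    · exact Finset.mem_filter.2 ⟨Finset.mem_univ _, P, hP, y, hy, rfl⟩
    · intro x hx
      obtain ⟨j, _, rfl⟩ := Finset.mem_image.1 hx
      exact hyA j
  · rw [Finset.card_image_of_injective _ (fun x x' h => by
      have h' : ((x : ℕ) : ℤ) = ((x' : ℕ) : ℤ) := h
      exact Fin.ext (by exact_mod_cast h'))]
    rw [Fintype.card_fin] at hA1
    have h2 : M ^ (m - 1) * M ≤ M ^ (m - 1) * (2 * colC k * A.card) := by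
      calc M ^ (m - 1) * M = M ^ m := by
            rw [← pow_succ]
            congr 1
            omega
        _ ≤ 2 * (colC k * M ^ (m - 1)) * A.card := hA1
        _ = _ := by ring
    exact Nat.le_of_mul_le_mul_left h2 (by positivity)

end Vale.Agent.P057.H562
end
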