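import Vale.Agent.P057.H562.Hit

set_option linter.all false

section

open Finset

namespace Vale.Agent.P057.H562

open Vale.Agent.P057.Lower

theorem unit_cast {b : ℕ} (r : ℕ) {e : ℤ} (he : IsCoprime e (b : ℤ)) :
    IsUnit ((e : ℤ) : ZMod (b ^ r)) := by
  rw [ZMod.coe_int_isUnit_iff_isCoprime]
  push_cast
  exact he.symm.pow_left

/-- the length used for the denominator `b` is at least `(k + 1) / (3 b)` -/
theorem len_ge (k b B : ℕ) (hb : 2 ≤ b) (hbB : b ≤ B) (hk : 2 * B * (B + 1) ≤ k + 1) :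
    k + 1 ≤ 3 * b * ((k + 1) / (2 * b)) := by
  have h1 : k + 1 < 2 * b * ((k + 1) / (2 * b) + 1) := Nat.lt_mul_div_succ _ (by omega)
  have h2 : 2 * b * (b + 1) ≤ k + 1 := by
    calc 2 * b * (b + 1) ≤ 2 * B * (B + 1) := by
          apply Nat.mul_le_mul <;> omega
      _ ≤ k + 1 := hk
  have h3 : b ≤ (k + 1) / (2 * b) := by
    rw [Nat.le_div_iff_mul_le (by omega)]
    nlinarith only [h2, hb]
  have h4 : b + 1 ≤ (k + 1) / (2 * b) := by
    rw [Nat.le_div_iff_mul_le (by omega)]
    nlinarith only [h2, hb]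
  nlinarith only [h1, h4, hb]

/-- deterministic choice of the removed classes -/
theorem cost_det (k B : ℕ) (hB : 3 ≤ B) (hk : 2 * B ^ 2 * (B + 1) ≤ k + 1) :
    Cost k 1 (-Real.log (1 - 2 / (B : ℝ))) := by
  classical
  have hBR : (3 : ℝ) ≤ B := by exact_mod_cast hB
  have hk1 : 2 * B * (B + 1) ≤ k + 1 := by
    refine le_trans ?_ hk
    nlinarith only [hB, Nat.zero_le (B * (B + 1))]
  have hkR : (0 : ℝ) < (k : ℝ) + 1 := by positivity
  set N : ℕ → ℕ := fun b => b ^ Nat.log b ((k + 1) / (2 * b)) with hNdef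
  have hdiv : ∀ b, 2 ≤ b → b ≤ B → (k + 1) / (2 * b) ≠ 0 := by
    intro b hb hbB h0
    have := len_ge k b B hb hbB hk1
    rw [h0] at this
    omega
  have hρ : 0 < 1 - 2 / (B : ℝ) := by
    have : 2 / (B : ℝ) < 1 := by
      rw [div_lt_one (by linarith only [hBR])]
      linarith only [hBR]
    linarith only [this]
  refine cost_blk k B (by omega) hk1 N N ?_ ?_ (fun b => {0}) ?_ _ hρ ?_
  · intro b hb hbB
    exact Nat.pow_pos (by omega)
  · intro b hb hbB
    have h1 : N b ≤ (k + 1) / (2 * b) := Nat.pow_log_le_self b (hdiv b hb hbB)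
    calc 2 * (b * N b) = 2 * b * N b := by ring
      _ ≤ 2 * b * ((k + 1) / (2 * b)) := Nat.mul_le_mul_left _ h1
      _ ≤ k + 1 := Nat.mul_div_le _ _
  · intro b hb hbB x e he
    have hNpos : 0 < N b := Nat.pow_pos (by omega)
    obtain ⟨s, hs, hs0⟩ := hit_zero (N b) hNpos ((x : ℤ) : ZMod (N b)) ((e : ℤ) : ZMod (N b))
      (unit_cast _ he)
    refine ⟨s, hs, ?_⟩
    rw [Finset.mem_singleton]
    push_cast
    exact hs0
  · have hterm : ∀ b ∈ Finset.Icc 2 B, 2 * ((({0} : Finset (ZMod (N b))).card : ℕ) : ℝ) / (b * N b)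
        ≤ 4 * (b : ℝ) / (k + 1) := by
      intro b hb
      obtain ⟨hb2, hbB⟩ := Finset.mem_Icc.1 hb
      have hbR : (0 : ℝ) < b := by
        have : 0 < b := by omega
        exact_mod_cast this
      have hNpos : 0 < N b := Nat.pow_pos (by omega)
      have hNR : (0 : ℝ) < N b := by exact_mod_cast hNpos
      have h1 : (k + 1) / (2 * b) < b ^ (Nat.log b ((k + 1) / (2 * b)) + 1) :=
        Nat.lt_pow_succ_log_self (by omega) _
      have h2 : k + 1 < (N b * b) * (2 * b) := by
        rw [Nat.div_lt_iff_lt_mul (by omega)] at h1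
        rwa [pow_succ] at h1
      have h3 : ((k : ℝ) + 1) < (N b * b) * (2 * b) := by exact_mod_cast h2
      rw [Finset.card_singleton, div_le_div_iff₀ (mul_pos hbR hNR) hkR]
      push_cast
      nlinarith only [h3]
    have hs : ∑ b ∈ Finset.Icc 2 B, 4 * (b : ℝ) / (k + 1) ≤ 1 / (B : ℝ) := by
      rw [← Finset.sum_div, div_le_div_iff₀ hkR (by linarith only [hBR])]
      have h1 : ∑ b ∈ Finset.Icc 2 B, 4 * (b : ℝ) ≤ ∑ b ∈ Finset.range (B + 1), 4 * (b : ℝ) := by
        apply Finset.sum_le_sum_of_subset_of_nonneg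
        · intro b hb
          have := Finset.mem_Icc.1 hb
          exact Finset.mem_range.2 (by omega)
        · intro b _ _
          positivity
      have h2 : ∑ b ∈ Finset.range (B + 1), 4 * (b : ℝ) = 2 * B * (B + 1) := by
        have h3 := Finset.sum_range_id_mul_two (B + 1)
        have h4 : (∑ i ∈ Finset.range (B + 1), (i : ℝ)) * 2 = (B + 1) * B := by
          have : (((∑ i ∈ Finset.range (B + 1), i) * 2 : ℕ) : ℝ) = (((B + 1) * (B + 1 - 1) : ℕ) : ℝ) := by
            rw [h3]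
          push_cast at this
          exact this
        rw [← Finset.mul_sum]
        linarith only [h4]
      have h5 : (2 * (B : ℝ) ^ 2 * (B + 1)) ≤ k + 1 := by exact_mod_cast hk
      rw [h2] at h1
      have h6 := mul_le_mul_of_nonneg_right h1 (by linarith only [hBR] : (0 : ℝ) ≤ B)
      nlinarith only [h5, h6]
    have h1 := (Finset.sum_le_sum hterm).trans hs
    have h2 : 2 / (B : ℝ) = 1 / B + 1 / B := by ring
    rw [h2]
    linarith only [h1]

/-- enough samples for the counting argument -/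
theorem count_ok (N L T : ℕ) (hL : 0 < L) (hLN : L ≤ N)
    (hT : 2 * (N : ℝ) * Real.log N / L < T) : N ^ 2 * (N - L) ^ T < N ^ T := by
  have hN : 0 < N := lt_of_lt_of_le hL hLN
  have hNR : (0 : ℝ) < N := by exact_mod_cast hN
  have hLR : (0 : ℝ) < L := by exact_mod_cast hL
  have h1 : ((N - L : ℕ) : ℝ) ≤ N * Real.exp (-(L / N : ℝ)) := by
    rw [Nat.cast_sub hLN]
    have h2 := Real.one_sub_le_exp_neg (L / N : ℝ)
    have h3 := mul_le_mul_of_nonneg_left h2 hNR.le
    have h4 : (N : ℝ) * (1 - L / N) = N - L := by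
      field_simp
    linarith only [h3, h4]
  have h2 : ((N - L : ℕ) : ℝ) ^ T ≤ N ^ T * Real.exp (-(L / N : ℝ) * T) := by
    calc ((N - L : ℕ) : ℝ) ^ T ≤ (N * Real.exp (-(L / N : ℝ))) ^ T :=
          pow_le_pow_left₀ (Nat.cast_nonneg _) h1 _
      _ = N ^ T * Real.exp (-(L / N : ℝ) * T) := by
          rw [mul_pow, ← Real.exp_nat_mul]
          congr 2
          ring
  have h3 : Real.exp (-(L / N : ℝ) * T) < ((N : ℝ) ^ 2)⁻¹ := by
    have h4 : 2 * Real.log N < (L / N : ℝ) * T := by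
      rw [div_lt_iff₀ hLR] at hT
      rw [div_mul_eq_mul_div, lt_div_iff₀ hNR]
      linarith only [hT]
    calc Real.exp (-(L / N : ℝ) * T) < Real.exp (-(2 * Real.log N)) := by
          apply Real.exp_lt_exp.2
          linarith only [h4]
      _ = ((N : ℝ) ^ 2)⁻¹ := by
          rw [Real.exp_neg, mul_comm, Real.exp_mul, Real.exp_log hNR]
          norm_num
  have h4 : (N : ℝ) ^ 2 * ((N - L : ℕ) : ℝ) ^ T < N ^ T := by
    calc (N : ℝ) ^ 2 * ((N - L : ℕ) : ℝ) ^ T
        ≤ (N : ℝ) ^ 2 * (N ^ T * Real.exp (-(L / N : ℝ) * T)) :=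
          mul_le_mul_of_nonneg_left h2 (by positivity)
      _ < (N : ℝ) ^ 2 * (N ^ T * ((N : ℝ) ^ 2)⁻¹) := by
          apply mul_lt_mul_of_pos_left _ (by positivity)
          exact mul_lt_mul_of_pos_left h3 (by positivity)
      _ = N ^ T := by
          field_simp
  exact_mod_cast h4

/-- random choice of the removed classes -/
theorem cost_rand (k B : ℕ) (hB : 3 ≤ B) (hk : 12 * (B : ℝ) ^ 2 * (1 + Real.log k) ≤ k + 1) :
    Cost k 1 (-Real.log (1 - 2 / (B : ℝ))) := by
  classical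
  have hBR : (3 : ℝ) ≤ B := by exact_mod_cast hB
  have hlogk : 0 ≤ Real.log k := Real.log_natCast_nonneg k
  have hk1 : 2 * B * (B + 1) ≤ k + 1 := by
    have h1 : (2 * (B : ℝ) * (B + 1)) ≤ k + 1 := by
      have h2 : 12 * (B : ℝ) ^ 2 * 1 ≤ 12 * (B : ℝ) ^ 2 * (1 + Real.log k) :=
        mul_le_mul_of_nonneg_left (by linarith only [hlogk]) (by positivity)
      nlinarith only [h2, hk, hBR]
    exact_mod_cast h1
  have hkR : (0 : ℝ) < (k : ℝ) + 1 := by positivity
  set L : ℕ → ℕ := fun b => (k + 1) / (2 * b) with hLdef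
  set N : ℕ → ℕ := fun b => b ^ Nat.clog b (L b) with hNdef
  set T : ℕ → ℕ := fun b => ⌊2 * (N b : ℝ) * Real.log (N b) / (L b)⌋₊ + 1 with hTdef
  have hLge : ∀ b, 2 ≤ b → b ≤ B → k + 1 ≤ 3 * b * L b := fun b hb hbB => len_ge k b B hb hbB hk1
  have hLpos : ∀ b, 2 ≤ b → b ≤ B → 0 < L b := by
    intro b hb hbB
    rcases Nat.eq_zero_or_pos (L b) with h0 | h0
    · have := hLge b hb hbB
      rw [h0] at this
      omega
    · exact h0
  have hLN : ∀ b, 2 ≤ b → b ≤ B → L b ≤ N b := by
    intro b hb hbB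
    exact Nat.le_pow_clog (by omega) _
  have hLk : ∀ b, 2 ≤ b → b ≤ B → 2 * (b * L b) ≤ k + 1 := by
    intro b hb hbB
    calc 2 * (b * L b) = 2 * b * ((k + 1) / (2 * b)) := by rw [hLdef]; ring
      _ ≤ k + 1 := Nat.mul_div_le _ _
  have hNk : ∀ b, 2 ≤ b → b ≤ B → N b ≤ k := by
    intro b hb hbB
    have h0 := hLpos b hb hbB
    have h1 := hLk b hb hbB
    have h2 : N b ≤ b * L b := by
      rcases Nat.lt_or_ge 1 (L b) with h | h
      · have h3 := Nat.pow_pred_clog_lt_self (b := b) (by omega) h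
        have h4 : 0 < Nat.clog b (L b) := Nat.clog_pos (by omega) h
        have h5 : N b = b * b ^ (Nat.clog b (L b)).pred := by
          show b ^ Nat.clog b (L b) = _
          rw [← pow_succ']
          congr 1
          exact (Nat.succ_pred_eq_of_pos h4).symm
        rw [h5]
        exact Nat.mul_le_mul_left _ h3.le
      · have h3 : L b = 1 := by omega
        have h4 : N b = 1 := by
          show b ^ Nat.clog b (L b) = 1
          rw [h3, Nat.clog_one_right, pow_zero]
        rw [h4, h3]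
        omega
    omega
  have hex : ∀ b, ∃ R : Finset (ZMod (N b)), 2 ≤ b → b ≤ B → (R.card ≤ T b ∧
      ∀ x e : ZMod (N b), IsUnit e → ∃ s : ℕ, s < L b ∧ x + s * e ∈ R) := by
    intro b
    by_cases hb : 2 ≤ b ∧ b ≤ B
    · obtain ⟨hb2, hbB⟩ := hb
      obtain ⟨R, hR1, hR2⟩ := exists_hit (N b) (L b) (T b)
        (lt_of_lt_of_le (hLpos b hb2 hbB) (hLN b hb2 hbB)) (hLN b hb2 hbB)
        (count_ok (N b) (L b) (T b) (hLpos b hb2 hbB) (hLN b hb2 hbB) (by
          have := Nat.lt_floor_add_one (2 * (N b : ℝ) * Real.log (N b) / (L b))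
          rw [hTdef]
          push_cast
          exact this))
      exact ⟨R, fun _ _ => ⟨hR1, hR2⟩⟩
    · exact ⟨∅, fun h1 h2 => absurd ⟨h1, h2⟩ hb⟩
  choose R hR using hex
  have hρ : 0 < 1 - 2 / (B : ℝ) := by
    have : 2 / (B : ℝ) < 1 := by
      rw [div_lt_one (by linarith only [hBR])]
      linarith only [hBR]
    linarith only [this]
  refine cost_blk k B (by omega) hk1 L N ?_ hLk R ?_ _ hρ ?_
  · intro b hb hbB
    exact lt_of_lt_of_le (hLpos b hb hbB) (hLN b hb hbB)
  · intro b hb hbB x e he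
    obtain ⟨s, hs, hs0⟩ := (hR b hb hbB).2 ((x : ℤ) : ZMod (N b)) ((e : ℤ) : ZMod (N b))
      (unit_cast _ he)
    refine ⟨s, hs, ?_⟩
    push_cast
    exact hs0
  · have hterm : ∀ b ∈ Finset.Icc 2 B, 2 * ((R b).card : ℝ) / (b * N b)
        ≤ 12 * (1 + Real.log k) / (k + 1) := by
      intro b hb
      obtain ⟨hb2, hbB⟩ := Finset.mem_Icc.1 hb
      have hbR : (0 : ℝ) < b := by
        have : 0 < b := by omega
        exact_mod_cast this
      have hL0 := hLpos b hb2 hbB
      have hLR : (0 : ℝ) < L b := by exact_mod_cast hL0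
      have hLNR : (L b : ℝ) ≤ N b := by exact_mod_cast hLN b hb2 hbB
      have hNR : (0 : ℝ) < N b := lt_of_lt_of_le hLR hLNR
      have hlogN0 : 0 ≤ Real.log (N b) := Real.log_natCast_nonneg _
      have hlogN : Real.log (N b) ≤ Real.log k :=
        Real.log_le_log hNR (by exact_mod_cast hNk b hb2 hbB)
      have h1 : ((R b).card : ℝ) ≤ 2 * (N b : ℝ) * Real.log (N b) / (L b) + 1 := by
        have h2 : ((R b).card : ℝ) ≤ T b := by exact_mod_cast (hR b hb2 hbB).1
        have h3 : (T b : ℝ) ≤ 2 * (N b : ℝ) * Real.log (N b) / (L b) + 1 := by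
          rw [hTdef]
          push_cast
          have := Nat.floor_le (by positivity : 0 ≤ 2 * (N b : ℝ) * Real.log (N b) / (L b))
          linarith only [this]
        exact h2.trans h3
      have h2 : (k : ℝ) + 1 ≤ 3 * b * L b := by exact_mod_cast hLge b hb2 hbB
      have h3 : ((R b).card : ℝ) * L b ≤ 2 * (N b : ℝ) * Real.log (N b) + N b := by
        have h4 := mul_le_mul_of_nonneg_right h1 hLR.le
        have h5 : (2 * (N b : ℝ) * Real.log (N b) / (L b) + 1) * L b =
            2 * (N b : ℝ) * Real.log (N b) + L b := by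
          field_simp
        rw [h5] at h4
        linarith only [h4, hLNR]
      rw [div_le_div_iff₀ (mul_pos hbR hNR) hkR]
      have h4 : 2 * ((R b).card : ℝ) * (k + 1) ≤ 2 * ((R b).card : ℝ) * (3 * b * L b) :=
        mul_le_mul_of_nonneg_left h2 (by positivity)
      have h5 : 2 * ((R b).card : ℝ) * (3 * b * L b) ≤
          6 * b * (2 * (N b : ℝ) * Real.log (N b) + N b) := by
        have := mul_le_mul_of_nonneg_left h3 (by positivity : (0 : ℝ) ≤ 6 * b)
        linarith only [this]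
      have h6 : 6 * b * (2 * (N b : ℝ) * Real.log (N b) + N b) ≤
          12 * (1 + Real.log k) * (b * N b) := by
        have h7 : 2 * Real.log (N b) + 1 ≤ 2 * (1 + Real.log k) := by linarith only [hlogN]
        have h8 := mul_le_mul_of_nonneg_left h7 (by positivity : (0 : ℝ) ≤ 6 * (b * N b))
        linarith only [h8]
      linarith only [h4, h5, h6]
    have hs : ∑ b ∈ Finset.Icc 2 B, 12 * (1 + Real.log k) / (k + 1) ≤ 1 / (B : ℝ) := by
      rw [Finset.sum_const, nsmul_eq_mul, Nat.card_Icc]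
      have h1 : (((B + 1 - 2 : ℕ)) : ℝ) ≤ B := by
        have : B + 1 - 2 ≤ B := by omega
        exact_mod_cast this
      have h2 : 0 ≤ 12 * (1 + Real.log k) / ((k : ℝ) + 1) := by positivity
      have h3 : (B : ℝ) * (12 * (1 + Real.log k) / (k + 1)) ≤ 1 / B := by
        rw [← mul_div_assoc, div_le_div_iff₀ hkR (by linarith only [hBR])]
        nlinarith only [hk]
      exact (mul_le_mul_of_nonneg_right h1 h2).trans h3
    have h1 := (Finset.sum_le_sum hterm).trans hs
    have h2 : 2 / (B : ℝ) = 1 / B + 1 / B := by ring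
    rw [h2]
    linarith only [h1]

end Vale.Agent.P057.H562
end
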