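import Vale.Agent.P057.H562.Bas

set_option linter.all false

section

open Finset

namespace Vale.Agent.P057.H562

open Vale.Agent.P057.Lower

/-- lower bounds with an improved last level -/
theorem last_level (k n p m : ℕ) (hk : 7 ≤ k) (hn : n = Nat.clog 2 k) (hp : p.Prime)
    (hp1 : 2 ^ (n - 1) + 2 ≤ p) (hp2 : p ≤ k) (hm : 3 ≤ m)
    (hkm : (m + 2) * 2 ^ (n - 1) < m * k) (κ : ℝ)
    (hκ : κ = Real.log (9 / 5) ∨ ∃ B : ℕ, 3 ≤ B ∧
      (2 * (B : ℝ) ^ 2 * (B + 1) ≤ k + 1 ∨ 12 * (B : ℝ) ^ 2 * (1 + Real.log k) ≤ k + 1) ∧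
      κ = Real.log (B / (B - 2)))
    (ε : ℝ) (hε : 0 < ε) :
    ∃ N₀ : ℕ, ∀ N : ℕ, N₀ ≤ N →
      ∃ A : Finset ℕ, A ⊆ Finset.Icc 1 N ∧ (∀ a d : ℕ, 0 < d → ¬ ∀ j < k, a + j * d ∈ A) ∧
        (N : ℝ) * Real.exp (-((1 + ε) * n * ((2 ^ (n * (n - 1) / 2) * Real.log 2 ^ (n - 2) *
          κ * (1 - 1 / (m : ℝ))) * Real.log N) ^ ((1 : ℝ) / n))) ≤ A.card := by
  have hn2 : 2 ≤ n := by
    by_contra hcon
    push Not at hcon
    have h3 : k ≤ 2 ^ Nat.clog 2 k := Nat.le_pow_clog (by norm_num) k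
    rw [← hn] at h3
    have h4 : 2 ^ n ≤ 2 ^ 1 := Nat.pow_le_pow_right (by norm_num) (by omega)
    omega
  have hpos : 0 < κ ∧ Cost k 1 κ := by
    rcases hκ with h | ⟨B, hB, hBk, h⟩
    · rw [h]
      exact ⟨Real.log_pos (by norm_num), cost_parity k (by omega)⟩
    · have hBR : (3 : ℝ) ≤ B := by exact_mod_cast hB
      have e : -Real.log (1 - 2 / (B : ℝ)) = Real.log (B / (B - 2)) := by
        rw [← Real.log_inv]
        congr 1
        have : (B : ℝ) - 2 ≠ 0 := by linarith only [hBR]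
        field_simp
      rw [h, ← e]
      refine ⟨kappa_pos B hBR, ?_⟩
      rcases hBk with h1 | h1
      · exact cost_det k B hB (by exact_mod_cast h1)
      · exact cost_rand k B hB h1
  exact to_sets k n _ (both_ends k m p n hn hn2 hm hp hp1 hp2 hkm κ hpos.1 hpos.2) ε hε

/-- progressions of length a power of two -/
theorem power_of_two (n : ℕ) (hn : 3 ≤ n) (ε : ℝ) (hε : 0 < ε) :
    ∃ N₀ : ℕ, ∀ N : ℕ, N₀ ≤ N →
      ∃ A : Finset ℕ, A ⊆ Finset.Icc 1 N ∧ (∀ a d : ℕ, 0 < d → ¬ ∀ j < 2 ^ n, a + j * d ∈ A) ∧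
        (N : ℝ) * Real.exp (-((1 + ε) * n * ((2 ^ (n * (n - 1) / 2) * Real.log 2 ^ (n - 2) *
          Real.log (9 / 5) * (2 / 3)) * Real.log N) ^ ((1 : ℝ) / n))) ≤ A.card := by
  obtain ⟨p, hp, hp1, hp2⟩ := prime_between n hn
  have h8 : 8 ≤ 2 ^ n := by
    calc 8 = 2 ^ 3 := by norm_num
      _ ≤ 2 ^ n := Nat.pow_le_pow_right (by norm_num) hn
  have e1 : 2 ^ n = 2 * 2 ^ (n - 1) := by
    rw [← pow_succ']
    congr 1
    omega
  have h := last_level (2 ^ n) n p 3 (by omega) (Nat.clog_pow 2 n (by norm_num)).symm hp hp1 hp2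
    le_rfl (by omega) (Real.log (9 / 5)) (Or.inl rfl) ε hε
  have e2 : (1 : ℝ) - 1 / ((3 : ℕ) : ℝ) = 2 / 3 := by norm_num
  rw [e2] at h
  exact h

end Vale.Agent.P057.H562
end
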