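import Vale.Agent.P057.Bdl.B1
import Mathlib.LinearAlgebra.Lagrange

set_option linter.all false

section

open Finset Polynomial

namespace Vale.Agent.P057.H562

open Vale.Agent.P057.Lower

/-- a difference of order `n` in which all but the last term vanish -/
theorem diff_last (v : ℕ → ℚ) (n j : ℕ) (hv : ∀ i < n, v (j + i) = 0) :
    (fwdDiff 1)^[n] v j = v (j + n) := by
  rw [fwdDiff_iter_eq_sum_shift, Finset.sum_range_succ]
  have h1 : ∑ i ∈ Finset.range n, ((-1 : ℤ) ^ (n - i) * (n.choose i : ℤ)) • v (j + i • 1) = 0 := by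
    apply Finset.sum_eq_zero
    intro i hi
    rw [smul_eq_mul, mul_one, hv i (Finset.mem_range.1 hi), smul_zero]
  rw [h1, zero_add, Nat.sub_self, pow_zero, Nat.choose_self, smul_eq_mul, mul_one]
  simp only [Nat.cast_one, mul_one, one_smul]

theorem diff_sub (u v : ℕ → ℚ) (n : ℕ) : ∀ j,
    (fwdDiff 1)^[n] (fun i => u i - v i) j = (fwdDiff 1)^[n] u j - (fwdDiff 1)^[n] v j := by
  induction n with
  | zero => intro j; rfl
  | succ n ih =>
    intro j
    rw [fwdDiff_succ_apply, fwdDiff_succ_apply, fwdDiff_succ_apply, ih, ih]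
    ring

/-- a sequence with vanishing differences of order `d + 1` is given by a polynomial -/
theorem exists_poly (d K : ℕ) (g : ℕ → ℤ)
    (hg : ∀ j, j + (d + 1) < K → (fwdDiff 1)^[d + 1] g j = 0) :
    ∃ P : ℚ[X], P.natDegree ≤ d ∧ ∀ j < K, P.eval (j : ℚ) = (g j : ℚ) := by
  have hinj : Set.InjOn (fun i : ℕ => (i : ℚ)) (Finset.range (d + 1)) := by
    intro a _ b _ hab
    have hab' : (a : ℚ) = b := hab
    exact_mod_cast hab'
  set P : ℚ[X] := Lagrange.interpolate (Finset.range (d + 1)) (fun i : ℕ => (i : ℚ))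
    (fun i => (g i : ℚ)) with hP
  have hdeg : P.natDegree ≤ d := by
    have h1 := Lagrange.degree_interpolate_lt (fun i => (g i : ℚ)) hinj
    rw [Finset.card_range] at h1
    have h2 : P.degree < ((d + 1 : ℕ) : WithBot ℕ) := h1
    by_cases hP0 : P = 0
    · rw [hP0, natDegree_zero]
      omega
    · exact Nat.lt_succ_iff.1 ((Polynomial.natDegree_lt_iff_degree_lt hP0).2 h2)
  have hnode : ∀ i, i ≤ d → P.eval (i : ℚ) = (g i : ℚ) := by
    intro i hi
    exact Lagrange.eval_interpolate_at_node (fun i => (g i : ℚ)) hinj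
      (Finset.mem_range.2 (by omega))
  refine ⟨P, hdeg, ?_⟩
  intro j
  induction j using Nat.strong_induction_on with
  | _ j ih =>
    intro hj
    rcases Nat.lt_or_ge d j with h | h
    · have h1 : (fwdDiff 1)^[d + 1] (fun i : ℕ => P.eval (i : ℚ) - (g i : ℚ)) (j - (d + 1)) = 0 := by
        rw [diff_sub, diff_intCast, hg _ (by omega), diff_natCast (fun x => P.eval x)]
        have h2 := congrFun (Polynomial.fwdDiff_iter_eq_zero_of_degree_lt
          (P := P) (n := d + 1) (by omega)) (((j - (d + 1) : ℕ)) : ℚ)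
        rw [h2]
        simp
      rw [diff_last _ (d + 1) (j - (d + 1)) (fun i hi => by
        rw [ih (j - (d + 1) + i) (by omega) (by omega), sub_self])] at h1
      have e : j - (d + 1) + (d + 1) = j := by omega
      rw [e] at h1
      exact sub_eq_zero.1 h1
    · exact hnode j h

/-- a common denominator for interpolation at the multiples of `N` -/
def den (N m : ℕ) : ℤ :=
  ∏ s ∈ Finset.range (m + 1), ∏ i ∈ (Finset.range (m + 1)).erase s, ((N : ℤ) * ((s : ℤ) - i))

theorem den_ne_zero (N m : ℕ) (hN : 0 < N) : den N m ≠ 0 := by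
  unfold den
  rw [Finset.prod_ne_zero_iff]
  intro s _
  rw [Finset.prod_ne_zero_iff]
  intro i hi
  have h1 := (Finset.mem_erase.1 hi).1
  have h2 : (s : ℤ) - i ≠ 0 := by
    intro h
    apply h1
    have : (s : ℤ) = i := by linarith only [h]
    exact_mod_cast this.symm
  exact mul_ne_zero (by exact_mod_cast hN.ne') h2

/-- interpolation at the multiples of `N` -/
theorem interp_int (N m : ℕ) (hN : 0 < N) (W : ℚ[X]) (hW : W.natDegree ≤ m) (t : ℤ)
    (hz : ∀ s ≤ m, ∃ z : ℤ, W.eval ((N : ℚ) * s) = (t : ℚ) * (den N m : ℤ) * z) (j : ℕ) :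
    ∃ z : ℤ, W.eval (j : ℚ) = (t : ℚ) * z := by
  have hNQ : (N : ℚ) ≠ 0 := by exact_mod_cast hN.ne'
  have hinj : Set.InjOn (fun s : ℕ => (N : ℚ) * s) (Finset.range (m + 1)) := by
    intro a _ b _ hab
    have h1 : (N : ℚ) * a = N * b := hab
    have h2 := mul_left_cancel₀ hNQ h1
    exact_mod_cast h2
  have hWe := Lagrange.eq_interpolate (s := Finset.range (m + 1)) (v := fun s : ℕ => (N : ℚ) * s)
    (f := W) hinj (by
      rw [Finset.card_range]
      exact (Polynomial.degree_le_natDegree).trans_lt (by exact_mod_cast Nat.lt_succ_of_le hW))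
  have heval : W.eval (j : ℚ) = ∑ s ∈ Finset.range (m + 1), W.eval ((N : ℚ) * s) *
      ∏ i ∈ (Finset.range (m + 1)).erase s,
        (((N : ℚ) * s - N * i)⁻¹ * ((j : ℚ) - N * i)) := by
    conv_lhs => rw [hWe]
    rw [Lagrange.interpolate_apply, Polynomial.eval_finset_sum]
    apply Finset.sum_congr rfl
    intro s _
    rw [eval_mul, eval_C, Lagrange.basis, Polynomial.eval_prod]
    congr 1
    apply Finset.prod_congr rfl
    intro i _
    rw [Lagrange.basisDivisor, eval_mul, eval_C, eval_sub, eval_X, eval_C]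
  have hterm : ∀ s ∈ Finset.range (m + 1), ∃ z : ℤ, W.eval ((N : ℚ) * s) *
      ∏ i ∈ (Finset.range (m + 1)).erase s,
        (((N : ℚ) * s - N * i)⁻¹ * ((j : ℚ) - N * i)) = (t : ℚ) * z := by
    intro s hs
    obtain ⟨z, hz'⟩ := hz s (by have := Finset.mem_range.1 hs; omega)
    have hden : den N m = (∏ i ∈ (Finset.range (m + 1)).erase s, ((N : ℤ) * ((s : ℤ) - i))) *
        ∏ s' ∈ (Finset.range (m + 1)).erase s, ∏ i ∈ (Finset.range (m + 1)).erase s',
          ((N : ℤ) * ((s' : ℤ) - i)) := by
      unfold den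
      exact (Finset.mul_prod_erase (Finset.range (m + 1))
        (fun s' => ∏ i ∈ (Finset.range (m + 1)).erase s', ((N : ℤ) * ((s' : ℤ) - i))) hs).symm
    refine ⟨z * (∏ s' ∈ (Finset.range (m + 1)).erase s, ∏ i ∈ (Finset.range (m + 1)).erase s',
          ((N : ℤ) * ((s' : ℤ) - i))) * ∏ i ∈ (Finset.range (m + 1)).erase s, ((j : ℤ) - N * i), ?_⟩
    have hne : (∏ i ∈ (Finset.range (m + 1)).erase s, ((N : ℚ) * ((s : ℚ) - i))) ≠ 0 := by
      rw [Finset.prod_ne_zero_iff]
      intro i hi
      have h1 := (Finset.mem_erase.1 hi).1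
      have h2 : (s : ℚ) - i ≠ 0 := by
        intro h
        apply h1
        have : (s : ℚ) = i := by linarith only [h]
        exact_mod_cast this.symm
      exact mul_ne_zero hNQ h2
    have hcancel : (∏ i ∈ (Finset.range (m + 1)).erase s, ((N : ℚ) * ((s : ℚ) - i))) *
        ∏ i ∈ (Finset.range (m + 1)).erase s, (((N : ℚ) * s - N * i)⁻¹ * ((j : ℚ) - N * i)) =
        ∏ i ∈ (Finset.range (m + 1)).erase s, ((j : ℚ) - N * i) := by
      rw [← Finset.prod_mul_distrib]
      apply Finset.prod_congr rfl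
      intro i hi
      have h1 := (Finset.mem_erase.1 hi).1
      have h2 : (s : ℚ) - i ≠ 0 := by
        intro h
        apply h1
        have : (s : ℚ) = i := by linarith only [h]
        exact_mod_cast this.symm
      have h3 : (N : ℚ) * s - N * i = N * (s - i) := by ring
      rw [h3, ← mul_assoc, mul_inv_cancel₀ (mul_ne_zero hNQ h2), one_mul]
    rw [hz', hden]
    push_cast
    rw [← hcancel]
    ring
  rw [heval]
  choose! z hz using hterm
  refine ⟨∑ s ∈ Finset.range (m + 1), z s, ?_⟩
  rw [Finset.sum_congr rfl hz, ← Finset.mul_sum]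
  push_cast
  rfl

/-- an integer valued polynomial that follows the sequence modulo `p` -/
theorem exists_follow (D k : ℕ) (p : ℤ) (u : ℕ → ℤ)
    (hd : ∀ j, j + (D + 1) < k → p ∣ (fwdDiff 1)^[D + 1] u j) :
    ∃ Q : ℚ[X], Q.natDegree ≤ D ∧ ∃ q : ℕ → ℤ, (∀ j : ℕ, Q.eval (j : ℚ) = (q j : ℚ)) ∧
      ∀ j < k, p ∣ u j - q j := by
  refine ⟨∑ i ∈ Finset.range (D + 1), C (((fwdDiff 1)^[i] u 0 : ℤ) / (i.factorial : ℚ)) *
    descPochhammer ℚ i, ?_, fun j => ∑ i ∈ Finset.range (D + 1),
      (j.choose i : ℤ) * (fwdDiff 1)^[i] u 0, ?_, ?_⟩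
  · apply Polynomial.natDegree_sum_le_of_forall_le
    intro i hi
    have h1 := Finset.mem_range.1 hi
    refine (Polynomial.natDegree_C_mul_le _ _).trans ?_
    rw [descPochhammer_natDegree]
    omega
  · intro j
    rw [Polynomial.eval_finset_sum]
    push_cast
    apply Finset.sum_congr rfl
    intro i _
    rw [eval_mul, eval_C, descPochhammer_eval_eq_descFactorial, Nat.descFactorial_eq_factorial_mul_choose]
    push_cast
    have : (i.factorial : ℚ) ≠ 0 := by exact_mod_cast i.factorial_ne_zero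
    field_simp
  · intro j hj
    have h1 := shift_eq_sum_fwdDiff_iter (h := 1) u j 0
    rw [zero_add, smul_eq_mul, mul_one] at h1
    have h2 : ∑ i ∈ Finset.range (D + 1), (j.choose i : ℤ) * (fwdDiff 1)^[i] u 0 =
        ∑ i ∈ Finset.range (max (D + 1) (j + 1)),
          if i < D + 1 then (j.choose i : ℤ) * (fwdDiff 1)^[i] u 0 else 0 := by
      rw [← Finset.sum_filter]
      apply Finset.sum_congr _ (fun _ _ => rfl)
      ext i
      rw [Finset.mem_filter, Finset.mem_range, Finset.mem_range]
      omega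
    have h3 : u j = ∑ i ∈ Finset.range (max (D + 1) (j + 1)),
        (j.choose i : ℤ) * (fwdDiff 1)^[i] u 0 := by
      rw [h1]
      rw [← Finset.sum_subset (Finset.range_subset_range.2 (le_max_right (D + 1) (j + 1)))]
      · apply Finset.sum_congr rfl
        intro i _
        rw [nsmul_eq_mul]
      · intro i _ hi
        rw [Finset.mem_range] at hi
        rw [Nat.choose_eq_zero_of_lt (by omega)]
        push_cast
        ring
    show p ∣ u j - ∑ i ∈ Finset.range (D + 1), (j.choose i : ℤ) * (fwdDiff 1)^[i] u 0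
    rw [h3, h2, ← Finset.sum_sub_distrib]
    apply Finset.dvd_sum
    intro i hi
    by_cases hiD : i < D + 1
    · rw [if_pos hiD, sub_self]
      exact dvd_zero _
    · rw [if_neg hiD, sub_zero]
      rcases Nat.lt_or_ge j i with hji | hji
      · rw [Nat.choose_eq_zero_of_lt hji]
        push_cast
        rw [zero_mul]
        exact dvd_zero _
      · apply dvd_mul_of_dvd_right
        have e2 : i = (i - (D + 1)) + (D + 1) := by omega
        have e : (fwdDiff 1)^[i] u 0 = (fwdDiff 1)^[i - (D + 1)] ((fwdDiff 1)^[D + 1] u) 0 := by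
          rw [← Function.iterate_add_apply, ← e2]
        rw [e]
        have h4 := dvd_diff_sub p (i - (D + 1)) ((fwdDiff 1)^[D + 1] u) (fun _ => 0) 0 (by
          intro i' _ hi'
          rw [sub_zero]
          exact hd i' (by omega))
        have h5 : ∀ n : ℕ, (fwdDiff 1)^[n] (fun _ : ℕ => (0 : ℤ)) 0 = 0 := by
          intro n
          have : (fwdDiff 1)^[n] (fun _ : ℕ => (0 : ℤ)) = fun _ => 0 := by
            induction n with
            | zero => rfl
            | succ n ih =>
              rw [Function.iterate_succ_apply', ih]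
              funext x
              simp [fwdDiff]
          rw [this]
        rw [h5, sub_zero] at h4
        exact h4

end Vale.Agent.P057.H562
end
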