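import Vale.Agent.P057.H562.Blk
import Mathlib.Data.ZMod.Units

set_option linter.all false

section

open Finset

namespace Vale.Agent.P057.H562

open Vale.Agent.P057.Lower

/-- a single class meets every full progression with unit step -/
theorem hit_zero (N : ℕ) (hN : 0 < N) (x e : ZMod N) (he : IsUnit e) :
    ∃ s : ℕ, s < N ∧ x + s * e = 0 := by
  haveI : NeZero N := ⟨hN.ne'⟩
  obtain ⟨v, rfl⟩ := he
  refine ⟨(-x * ((v⁻¹ : (ZMod N)ˣ) : ZMod N)).val, ZMod.val_lt _, ?_⟩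
  rw [ZMod.natCast_zmod_val, mul_assoc, Units.inv_mul, mul_one, add_neg_cancel]

/-- few classes meet every progression of `L` terms with unit step, by counting -/
theorem exists_hit (N L T : ℕ) (hN : 0 < N) (hLN : L ≤ N) (h : N ^ 2 * (N - L) ^ T < N ^ T) :
    ∃ R : Finset (ZMod N), R.card ≤ T ∧
      ∀ x e : ZMod N, IsUnit e → ∃ s : ℕ, s < L ∧ x + s * e ∈ R := by
  classical
  haveI : NeZero N := ⟨hN.ne'⟩
  let AP : ZMod N × ZMod N → Finset (ZMod N) :=
    fun q => (Finset.range L).image (fun s : ℕ => q.1 + s * q.2)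
  have hAP : ∀ q : ZMod N × ZMod N, IsUnit q.2 → (AP q).card = L := by
    intro q hq
    show ((Finset.range L).image (fun s : ℕ => q.1 + s * q.2)).card = L
    rw [Finset.card_image_of_injOn, Finset.card_range]
    intro s hs s' hs' hss
    have hs1 := Finset.mem_range.1 (Finset.mem_coe.1 hs)
    have hs2 := Finset.mem_range.1 (Finset.mem_coe.1 hs')
    have h1 : (s : ZMod N) * q.2 = s' * q.2 := add_left_cancel hss
    have h2 : (s : ZMod N) = s' := hq.mul_right_cancel h1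
    rw [ZMod.natCast_eq_natCast_iff', Nat.mod_eq_of_lt (by omega), Nat.mod_eq_of_lt (by omega)] at h2
    exact h2
  by_contra hcon
  push Not at hcon
  have hcov : (Finset.univ : Finset (Fin T → ZMod N)) ⊆
      (Finset.univ.filter (fun q : ZMod N × ZMod N => IsUnit q.2)).biUnion
        (fun q => Fintype.piFinset (fun _ => (AP q)ᶜ)) := by
    intro f _
    obtain ⟨x, e, he, hx⟩ := hcon (Finset.univ.image f)
      (Finset.card_image_le.trans (by rw [Finset.card_univ, Fintype.card_fin]))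
    rw [Finset.mem_biUnion]
    refine ⟨(x, e), Finset.mem_filter.2 ⟨Finset.mem_univ _, he⟩, ?_⟩
    rw [Fintype.mem_piFinset]
    intro i
    rw [Finset.mem_compl]
    intro hi
    obtain ⟨s, hs, hse⟩ := Finset.mem_image.1 hi
    apply hx s (Finset.mem_range.1 hs)
    have hse' : x + s * e = f i := hse
    rw [hse']
    exact Finset.mem_image_of_mem f (Finset.mem_univ i)
  have h1 := (Finset.card_le_card hcov).trans Finset.card_biUnion_le
  have h2 : ∑ q ∈ Finset.univ.filter (fun q : ZMod N × ZMod N => IsUnit q.2),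
      (Fintype.piFinset (fun _ : Fin T => (AP q)ᶜ)).card ≤ N ^ 2 * (N - L) ^ T := by
    calc ∑ q ∈ Finset.univ.filter (fun q : ZMod N × ZMod N => IsUnit q.2),
          (Fintype.piFinset (fun _ : Fin T => (AP q)ᶜ)).card
        ≤ ∑ q ∈ Finset.univ.filter (fun q : ZMod N × ZMod N => IsUnit q.2), (N - L) ^ T := by
          apply Finset.sum_le_sum
          intro q hq
          rw [Fintype.card_piFinset_const, Finset.card_compl, ZMod.card,
            hAP q (Finset.mem_filter.1 hq).2]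
      _ = (Finset.univ.filter (fun q : ZMod N × ZMod N => IsUnit q.2)).card * (N - L) ^ T := by
          rw [Finset.sum_const, smul_eq_mul]
      _ ≤ N ^ 2 * (N - L) ^ T := by
          apply Nat.mul_le_mul_right
          refine (Finset.card_filter_le _ _).trans ?_
          rw [Finset.card_univ, Fintype.card_prod, ZMod.card, sq]
  have h3 : (Finset.univ : Finset (Fin T → ZMod N)).card = N ^ T := by
    rw [Finset.card_univ, Fintype.card_fun, ZMod.card, Fintype.card_fin]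
  rw [h3] at h1
  omega

/-- the number of integers up to `M` in absolute value in given classes -/
theorem card_classes (N M : ℕ) (hN : 0 < N) (R : Finset (ZMod N)) :
    ((Finset.Icc (-(M : ℤ)) M).filter (fun u : ℤ => (u : ZMod N) ∈ R)).card ≤
      R.card * (2 * M / N + 1) := by
  classical
  have hN' : (0 : ℤ) < N := by exact_mod_cast hN
  have hmap : ∀ u ∈ (Finset.Icc (-(M : ℤ)) M).filter (fun u : ℤ => (u : ZMod N) ∈ R),
      ((u : ZMod N), ((u + M) / N).toNat) ∈ R ×ˢ Finset.range (2 * M / N + 1) := by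
    intro u hu
    obtain ⟨h1, h2⟩ := Finset.mem_filter.1 hu
    rw [Finset.mem_Icc] at h1
    rw [Finset.mem_product]
    refine ⟨h2, Finset.mem_range.2 ?_⟩
    show ((u + M) / N).toNat < 2 * M / N + 1
    have h3 : (u + M) / (N : ℤ) ≤ ((2 * M : ℕ) : ℤ) / (N : ℤ) := by
      apply Int.ediv_le_ediv hN'
      push_cast
      omega
    have h4 : (((2 * M / N : ℕ)) : ℤ) = ((2 * M : ℕ) : ℤ) / (N : ℤ) := Int.natCast_div _ _
    have h5 : (0 : ℤ) ≤ ((2 * M : ℕ) : ℤ) / (N : ℤ) := Int.ediv_nonneg (by positivity) hN'.le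
    omega
  have hinj : Set.InjOn (fun u : ℤ => (((u : ZMod N), ((u + M) / N).toNat) : ZMod N × ℕ))
      ((Finset.Icc (-(M : ℤ)) M).filter (fun u : ℤ => (u : ZMod N) ∈ R)) := by
    intro u hu v hv huv
    have h1 := Finset.mem_Icc.1 (Finset.mem_filter.1 (Finset.mem_coe.1 hu)).1
    have h2 := Finset.mem_Icc.1 (Finset.mem_filter.1 (Finset.mem_coe.1 hv)).1
    have h3 : (u : ZMod N) = (v : ZMod N) := congrArg Prod.fst huv
    have h4 : ((u + M) / (N : ℤ)).toNat = ((v + M) / (N : ℤ)).toNat := congrArg Prod.snd huv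
    have h5 : 0 ≤ (u + M) / (N : ℤ) := Int.ediv_nonneg (by omega) hN'.le
    have h6 : 0 ≤ (v + M) / (N : ℤ) := Int.ediv_nonneg (by omega) hN'.le
    have h7 : (u + M) / (N : ℤ) = (v + M) / (N : ℤ) := by omega
    rw [ZMod.intCast_eq_intCast_iff'] at h3
    have h8 : (u + M) % (N : ℤ) = (v + M) % (N : ℤ) := by
      rw [Int.add_emod, h3, ← Int.add_emod]
    have h9 := Int.emod_add_mul_ediv (u + M) N
    have h10 := Int.emod_add_mul_ediv (v + M) N
    rw [h8, h7] at h9
    omega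
  have := Finset.card_le_card_of_injOn _ hmap hinj
  rwa [Finset.card_product, Finset.card_range] at this

/-- the condition that defines the block -/
def Good (B p : ℕ) (N : ℕ → ℕ) (R : (b : ℕ) → Finset (ZMod (N b))) (u : ℤ) : Prop :=
  2 * B * |u| < ((B : ℤ) - 1) * (p : ℤ) ∧
    ∀ b ∈ Finset.Icc 2 B, ((u : ZMod (N b)) ∈ R b → (p : ℤ) < b * |u|)

open Classical in
/-- the block set -/
noncomputable def blk (B p : ℕ) (N : ℕ → ℕ) (R : (b : ℕ) → Finset (ZMod (N b))) : Finset ℤ :=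
  (Finset.Icc (-(p : ℤ)) p).filter (fun u => Good B p N R u)

theorem mem_blk {B p : ℕ} {N : ℕ → ℕ} {R : (b : ℕ) → Finset (ZMod (N b))} {u : ℤ}
    (hu : u ∈ blk B p N R) : 2 * B * |u| < ((B : ℤ) - 1) * (p : ℤ) ∧
    ∀ b ∈ Finset.Icc 2 B, ((u : ZMod (N b)) ∈ R b → (p : ℤ) < b * |u|) := by
  classical
  unfold blk at hu
  exact (Finset.mem_filter.1 hu).2

theorem abs_blk {B p : ℕ} {N : ℕ → ℕ} {R : (b : ℕ) → Finset (ZMod (N b))} {u : ℤ}
    (hu : u ∈ blk B p N R) : |u| ≤ p := by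
  classical
  unfold blk at hu
  exact abs_le.2 (Finset.mem_Icc.1 (Finset.mem_filter.1 hu).1)

theorem card_blk (B p : ℕ) (hB : 2 ≤ B) (hp : 0 < p) (N : ℕ → ℕ)
    (hN : ∀ b, 2 ≤ b → b ≤ B → 0 < N b) (R : (b : ℕ) → Finset (ZMod (N b))) :
    (1 - 1 / (B : ℝ)) * p - 2 - ∑ b ∈ Finset.Icc 2 B,
      (((R b).card : ℝ) * (2 * p / (b * N b)) + (R b).card) ≤ (blk B p N R).card := by
  classical
  set h : ℕ := ((B - 1) * p - 1) / (2 * B) with hh
  have hBR : (2 : ℝ) ≤ B := by exact_mod_cast hB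
  have hsub : Finset.Icc (-(h : ℤ)) h ⊆ blk B p N R ∪ (Finset.Icc 2 B).biUnion
      (fun b => (Finset.Icc (-((p / b : ℕ) : ℤ)) (p / b : ℕ)).filter
        (fun u : ℤ => (u : ZMod (N b)) ∈ R b)) := by
    intro u hu
    rw [Finset.mem_Icc] at hu
    rw [Finset.mem_union, Finset.mem_biUnion]
    by_cases hcase : ∀ b ∈ Finset.Icc 2 B, ((u : ZMod (N b)) ∈ R b → (p : ℤ) < b * |u|)
    · left
      unfold blk
      have hB1 : 1 ≤ (B - 1) * p := Nat.mul_pos (by omega) hp
      have h1 : 2 * B * h ≤ (B - 1) * p - 1 := by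
        rw [hh]
        exact Nat.mul_div_le _ _
      have h2 : |u| ≤ h := abs_le.2 hu
      have h3 : (2 * (B : ℤ) * h) < ((B : ℤ) - 1) * p := by
        have h4 : 2 * B * h < (B - 1) * p := by omega
        have h5 : ((2 * B * h : ℕ) : ℤ) < (((B - 1) * p : ℕ) : ℤ) := by exact_mod_cast h4
        rw [Nat.cast_mul (B - 1) p, Nat.cast_sub (by omega : 1 ≤ B)] at h5
        push_cast at h5
        exact h5
      have h4 : 2 * (B : ℤ) * |u| < ((B : ℤ) - 1) * p :=
        lt_of_le_of_lt (mul_le_mul_of_nonneg_left h2 (by positivity)) h3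
      refine Finset.mem_filter.2 ⟨?_, h4, hcase⟩
      rw [Finset.mem_Icc]
      apply abs_le.1
      have hB' : (2 : ℤ) ≤ B := by exact_mod_cast hB
      have hp' : (0 : ℤ) < p := by exact_mod_cast hp
      nlinarith only [h4, hB', hp', abs_nonneg u]
    · right
      push Not at hcase
      obtain ⟨b, hb, hR, hle⟩ := hcase
      refine ⟨b, hb, Finset.mem_filter.2 ⟨?_, hR⟩⟩
      have hb2 := (Finset.mem_Icc.1 hb).1
      rw [Finset.mem_Icc]
      apply abs_le.1
      have h1 : |u| ≤ (p : ℤ) / (b : ℤ) := by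
        rw [Int.le_ediv_iff_mul_le (by omega)]
        linarith only [hle]
      have h2 : (((p / b : ℕ)) : ℤ) = (p : ℤ) / (b : ℤ) := Int.natCast_div _ _
      rw [h2]
      exact h1
  have hcard := (Finset.card_le_card hsub).trans ((Finset.card_union_le _ _).trans
    (Nat.add_le_add_left Finset.card_biUnion_le _))
  rw [Int.card_Icc] at hcard
  have hcardR : ((2 * h + 1 : ℕ) : ℝ) ≤ ((blk B p N R).card : ℝ) +
      ∑ b ∈ Finset.Icc 2 B, ((((Finset.Icc (-((p / b : ℕ) : ℤ)) (p / b : ℕ)).filter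
        (fun u : ℤ => (u : ZMod (N b)) ∈ R b)).card : ℕ) : ℝ) := by
    have h1 : 2 * h + 1 ≤ (blk B p N R).card +
      ∑ b ∈ Finset.Icc 2 B, ((Finset.Icc (-((p / b : ℕ) : ℤ)) (p / b : ℕ)).filter
        (fun u : ℤ => (u : ZMod (N b)) ∈ R b)).card := by
      have h2 : ((h : ℤ) + 1 - -(h : ℤ)).toNat = 2 * h + 1 := by omega
      rw [h2] at hcard
      exact hcard
    exact_mod_cast h1
  have hsum : ∑ b ∈ Finset.Icc 2 B, ((((Finset.Icc (-((p / b : ℕ) : ℤ)) (p / b : ℕ)).filter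
        (fun u : ℤ => (u : ZMod (N b)) ∈ R b)).card : ℕ) : ℝ) ≤
      ∑ b ∈ Finset.Icc 2 B, (((R b).card : ℝ) * (2 * p / (b * N b)) + (R b).card) := by
    apply Finset.sum_le_sum
    intro b hb
    obtain ⟨hb2, hbB⟩ := Finset.mem_Icc.1 hb
    have hNb := hN b hb2 hbB
    have h1 := card_classes (N b) (p / b) hNb (R b)
    have hbR : (0 : ℝ) < b := by
      have : 0 < b := by omega
      exact_mod_cast this
    have hNR : (0 : ℝ) < N b := by exact_mod_cast hNb
    have h2 : ((2 * (p / b) / N b : ℕ) : ℝ) ≤ 2 * p / (b * N b) := by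
      refine (Nat.cast_div_le).trans ?_
      push_cast
      have h3 : ((p / b : ℕ) : ℝ) ≤ p / b := Nat.cast_div_le
      rw [div_le_div_iff₀ hNR (mul_pos hbR hNR)]
      have h4 : ((p / b : ℕ) : ℝ) * b ≤ p := by
        rw [le_div_iff₀ hbR] at h3
        exact h3
      have h5 := mul_le_mul_of_nonneg_right h4 hNR.le
      linarith only [h5]
    have h3 : (((((Finset.Icc (-((p / b : ℕ) : ℤ)) (p / b : ℕ)).filter
        (fun u : ℤ => (u : ZMod (N b)) ∈ R b)).card : ℕ)) : ℝ) ≤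
        ((R b).card : ℝ) * (((2 * (p / b) / N b : ℕ) : ℝ) + 1) := by
      exact_mod_cast h1
    have h4 := mul_le_mul_of_nonneg_left h2 (Nat.cast_nonneg (R b).card : (0 : ℝ) ≤ _)
    linarith only [h3, h4]
  have hh2 : (1 - 1 / (B : ℝ)) * p - 2 ≤ ((2 * h + 1 : ℕ) : ℝ) := by
    have h1 : (B - 1) * p < 2 * B * (h + 1) + 1 := by
      have := Nat.lt_mul_div_succ ((B - 1) * p - 1) (b := 2 * B) (by omega)
      rw [← hh] at this
      omega
    have h2 : (((B - 1) * p : ℕ) : ℝ) ≤ ((2 * B * (h + 1) + 1 : ℕ) : ℝ) := by exact_mod_cast h1.le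
    rw [Nat.cast_mul (B - 1) p, Nat.cast_sub (by omega : 1 ≤ B)] at h2
    push_cast at h2 ⊢
    have h3 : (1 - 1 / (B : ℝ)) * p = ((B : ℝ) - 1) * p / B := by
      field_simp
    rw [h3]
    have h4 : ((B : ℝ) - 1) * p / B ≤ (2 * B * (h + 1) + 1) / B :=
      div_le_div_of_nonneg_right h2 (by linarith only [hBR])
    have h5 : (2 * (B : ℝ) * (h + 1) + 1) / B = 2 * (h + 1) + 1 / B := by
      field_simp
    have h6 : 1 / (B : ℝ) ≤ 1 := by
      rw [div_le_one (by linarith only [hBR])]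
      linarith only [hBR]
    linarith only [h4, h5, h6]
  linarith only [hcardR, hsum, hh2]

/-- the cost of the block -/
theorem cost_blk (k B : ℕ) (hB : 2 ≤ B) (hk : 2 * B * (B + 1) ≤ k + 1) (L N : ℕ → ℕ)
    (hN : ∀ b, 2 ≤ b → b ≤ B → 0 < N b)
    (hL : ∀ b, 2 ≤ b → b ≤ B → 2 * (b * L b) ≤ k + 1)
    (R : (b : ℕ) → Finset (ZMod (N b)))
    (hit : ∀ b, 2 ≤ b → b ≤ B → ∀ x e : ℤ, IsCoprime e (b : ℤ) →
      ∃ s : ℕ, s < L b ∧ (((x + s * e : ℤ)) : ZMod (N b)) ∈ R b)
    (ρ : ℝ) (hρ : 0 < ρ)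
    (hsum : ρ ≤ 1 - 1 / (B : ℝ) - ∑ b ∈ Finset.Icc 2 B, 2 * ((R b).card : ℝ) / (b * N b)) :
    Cost k 1 (-Real.log ρ) := by
  intro η hη
  have hlt : Real.exp (-η) < 1 := Real.exp_lt_one_iff.2 (by linarith only [hη])
  obtain ⟨m0, hm0⟩ := eventually_div_le (2 + ∑ b ∈ Finset.Icc 2 B, ((R b).card : ℝ))
    (ρ * (1 - Real.exp (-η))) (mul_pos hρ (by linarith only [hlt]))
  refine ⟨max m0 (B + 1), fun p hp hpp => ?_⟩
  have hpB : B < p := lt_of_lt_of_le (Nat.lt_succ_self B) (le_trans (le_max_right _ _) hp)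
  have hpm : m0 ≤ p := le_trans (le_max_left _ _) hp
  refine ⟨blk B p N R, ?_, fun u hu => abs_blk hu, ?_⟩
  · refine block_long k B p hpp hB hpB hk L (fun b u => ((u : ℤ) : ZMod (N b)) ∈ R b) hL hit _ ?_ ?_
    · intro u hu
      exact (mem_blk hu).1
    · intro u hu b hb2 hbB hR
      exact (mem_blk hu).2 b (Finset.mem_Icc.2 ⟨hb2, hbB⟩) hR
  · have hpR : (0 : ℝ) < p := by exact_mod_cast hpp.pos
    have h1 := card_blk B p hB hpp.pos N hN R
    have h4 := hm0 p hpm
    rw [div_le_iff₀ hpR] at h4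
    have h5 : Real.exp (-(-Real.log ρ + η)) = ρ * Real.exp (-η) := by
      rw [neg_add, neg_neg, Real.exp_add, Real.exp_log hρ]
    rw [h5, le_div_iff₀ hpR]
    have h6 : ∑ b ∈ Finset.Icc 2 B, (((R b).card : ℝ) * (2 * p / (b * N b)) + (R b).card) =
        (∑ b ∈ Finset.Icc 2 B, 2 * ((R b).card : ℝ) / (b * N b)) * p +
          ∑ b ∈ Finset.Icc 2 B, ((R b).card : ℝ) := by
      rw [Finset.sum_add_distrib, Finset.sum_mul]
      congr 1
      apply Finset.sum_congr rfl
      intro b _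
      ring
    rw [h6] at h1
    have h7 := mul_le_mul_of_nonneg_right hsum hpR.le
    nlinarith only [h1, h4, h7]

end Vale.Agent.P057.H562
end
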