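import Vale.Agent.P057.H562.LogM
import Vale.Agent.P057.H562.Hit
import Vale.Agent.P057.H336.VandKill
import Vale.Agent.P057.H829.Hit

set_option linter.all false

section

open Finset

namespace Vale.Agent.P057.H562

open Vale.Agent.P057.Lower

theorem diff_step (N : ℕ) (u : ℕ → ℤ) (j0 : ℕ) (n : ℕ) : ∀ s,
    (fwdDiff 1)^[n] (fun s => u (j0 + N * s)) s = (fwdDiff N)^[n] u (j0 + N * s) := by
  induction n with
  | zero => intro s; rfl
  | succ n ih =>
    intro s
    rw [fwdDiff_succ_apply, ih, ih, Function.iterate_succ_apply']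
    show _ = (fwdDiff N)^[n] u (j0 + N * s + N) - (fwdDiff N)^[n] u (j0 + N * s)
    rw [Nat.mul_add, mul_one, ← Nat.add_assoc]

open Classical in
/-- the block for degree `D` -/
noncomputable def vblk (h M : ℕ) (R : Finset (ZMod M)) : Finset ℤ :=
  (Finset.Icc (-(h : ℤ)) h).filter (fun u => ((u : ℤ) : ZMod M) ∉ R)

theorem mem_vblk {h M : ℕ} {R : Finset (ZMod M)} {u : ℤ} (hu : u ∈ vblk h M R) :
    |u| ≤ h ∧ ((u : ℤ) : ZMod M) ∉ R := by
  classical
  unfold vblk at hu
  obtain ⟨h1, h2⟩ := Finset.mem_filter.1 hu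
  exact ⟨abs_le.2 (Finset.mem_Icc.1 h1), h2⟩

theorem card_vblk (h M : ℕ) (hM : 0 < M) (R : Finset (ZMod M)) (hR : 2 * R.card ≤ M) :
    (h : ℝ) - M ≤ (vblk h M R).card := by
  classical
  have h1 : (vblk h M R).card +
      ((Finset.Icc (-(h : ℤ)) h).filter (fun u : ℤ => (u : ZMod M) ∈ R)).card = 2 * h + 1 := by
    unfold vblk
    have h2 := Finset.card_filter_add_card_filter_not (s := Finset.Icc (-(h : ℤ)) h)
      (p := fun u : ℤ => (u : ZMod M) ∈ R)
    have h3 : (Finset.Icc (-(h : ℤ)) (h : ℤ)).card = 2 * h + 1 := by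
      rw [Int.card_Icc]
      omega
    rw [h3] at h2
    omega
  have h2 := card_classes M h hM R
  have h3 : (((Finset.Icc (-(h : ℤ)) h).filter (fun u : ℤ => (u : ZMod M) ∈ R)).card : ℝ) ≤
      (R.card : ℝ) * (2 * h / M + 1) := by
    have h4 : (((Finset.Icc (-(h : ℤ)) h).filter (fun u : ℤ => (u : ZMod M) ∈ R)).card : ℝ) ≤
        (R.card : ℝ) * (((2 * h / M : ℕ) : ℝ) + 1) := by exact_mod_cast h2
    have h5 : ((2 * h / M : ℕ) : ℝ) ≤ 2 * h / M := by
      refine (Nat.cast_div_le).trans ?_
      push_cast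
      exact le_refl _
    refine h4.trans (mul_le_mul_of_nonneg_left (by linarith only [h5]) (Nat.cast_nonneg _))
  have hMR : (0 : ℝ) < M := by exact_mod_cast hM
  have h4 : (R.card : ℝ) ≤ M / 2 := by
    have : (2 : ℝ) * R.card ≤ M := by exact_mod_cast hR
    linarith only [this]
  have h5 : (R.card : ℝ) * (2 * h / M + 1) ≤ h + M / 2 := by
    calc (R.card : ℝ) * (2 * h / M + 1) ≤ (M / 2) * (2 * h / M + 1) :=
          mul_le_mul_of_nonneg_right h4 (by positivity)
      _ = h + M / 2 := by
          field_simp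
  have h6 : ((vblk h M R).card : ℝ) +
      (((Finset.Icc (-(h : ℤ)) h).filter (fun u : ℤ => (u : ZMod M) ∈ R)).card : ℝ) =
      2 * h + 1 := by exact_mod_cast h1
  linarith only [h3, h5, h6, hMR]

theorem block_vand (v D k r L w p h : ℕ) (hv : 2 ≤ v)
    (hr : D + 1 ≤ r * (v * (v - 1) / 2)) (hL : v.factorial * L ≤ k)
    (hk : v.factorial * (D + 5) ≤ k) (hdL : r * (v * (v - 1) / 2) < L)
    (R : Finset (ZMod (modu v.factorial D ^ (w + 1))))
    (hR : ∀ A : ℕ → ℤ, (∀ s, s + r * (v * (v - 1) / 2) < L →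
        (fwdDiff 1)^[r * (v * (v - 1) / 2)] A s = 0) →
        (∀ s < L, ((A s : ℤ) : ZMod (modu v.factorial D ^ (w + 1))) ∉ R) →
        ∀ s < L, ((modu v.factorial D : ℕ) : ℤ) ∣ A s - A 0)
    (hp : 0 < p) (hcop : IsCoprime (p : ℤ) ((modu v.factorial D : ℕ) : ℤ))
    (hh : 4 * (v.factorial ^ r * h) < p) :
    Block k D p (vblk h (modu v.factorial D ^ (w + 1)) R) := by
  have hN2 : 2 ≤ v.factorial := by
    calc 2 = Nat.factorial 2 := rfl
      _ ≤ v.factorial := Nat.factorial_le hv
  have hF : 1 ≤ v.factorial ^ r := Nat.one_le_pow _ _ (by omega)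
  have hh1 : v.factorial ^ r * h < p := by omega
  have hh4 : 4 * h < p := by
    have : h ≤ v.factorial ^ r * h := Nat.le_mul_of_pos_left _ (by omega)
    omega
  constructor
  · intro u hu u' hu' hdvd
    have h1 := (mem_vblk hu).1
    have h2 := (mem_vblk hu').1
    have h3 : |u - u'| < p := by
      have h4 := abs_sub u u'
      have h5 : (4 : ℤ) * h < p := by exact_mod_cast hh4
      have h6 : (0 : ℤ) ≤ h := by positivity
      linarith only [h1, h2, h4, h5, h6]
    have := Int.eq_zero_of_abs_lt_dvd hdvd h3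
    omega
  · intro u hu hd
    have habs : ∀ j < k, |u j| ≤ h := fun j hj => (mem_vblk (hu j hj)).1
    have hkill := Vale.Agent.P057.H336.vand_kill v r D k p h hv hr hh1 u habs hd
    set d := r * (v * (v - 1) / 2) with hd'
    set N := v.factorial with hN
    apply periodic_genuine N D k p h hN2 hp hcop hh4 hk u habs hd
    intro j hj
    -- a window of `L` terms that contains `j` and `j + N`
    have hL2 : 2 ≤ L := by omega
    set t := min (j / N) (L - 2) with ht
    have htj : N * t ≤ j := by
      calc N * t ≤ N * (j / N) := Nat.mul_le_mul_left _ (min_le_left _ _)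
        _ ≤ j := Nat.mul_div_le _ _
    have htL : t ≤ L - 2 := min_le_right _ _
    have hwin : j - N * t + N * (L - 1) < k := by
      rcases Nat.lt_or_ge (j / N) (L - 2) with h1 | h1
      · have h2 : t = j / N := min_eq_left h1.le
        have h3 : j - N * t < N := by
          rw [h2]
          have h4 := Nat.mod_add_div j N
          have h5 := Nat.mod_lt j (by omega : 0 < N)
          omega
        have h4 : N * (L - 1) + N = N * L := by
          obtain ⟨L', rfl⟩ : ∃ L', L = L' + 1 := ⟨L - 1, by omega⟩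
          rw [Nat.add_sub_cancel]
          ring
        omega
      · have h2 : t = L - 2 := min_eq_right h1
        have h3 : N * (L - 1) = N * t + N := by
          rw [h2]
          obtain ⟨L', rfl⟩ : ∃ L', L = L' + 2 := ⟨L - 2, by omega⟩
          have e1 : L' + 2 - 1 = L' + 1 := by omega
          have e2 : L' + 2 - 2 = L' := by omega
          rw [e1, e2]
          ring
        omega
    have hle : ∀ s, s ≤ L - 1 → j - N * t + N * s < k := by
      intro s hs
      have : N * s ≤ N * (L - 1) := Nat.mul_le_mul_left _ hs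
      omega
    have hconst := hR (fun s => u (j - N * t + N * s)) (by
      intro s hs
      rw [diff_step N u (j - N * t) d s]
      apply hkill
      have h1 := hle (s + d) (by omega)
      rw [Nat.mul_add] at h1
      omega) (by
      intro s hs
      exact (mem_vblk (hu _ (hle s (by omega)))).2)
    have h1 := hconst t (by omega)
    have h2 := hconst (t + 1) (by omega)
    have h3 := dvd_sub h2 h1
    have e1 : j - N * t + N * (t + 1) = j + N := by
      rw [Nat.mul_add, mul_one]
      omega
    have e2 : j - N * t + N * t = j := by omega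
    simp only [e1, e2, sub_sub_sub_cancel_right] at h3
    exact h3

/-- the cost of the block -/
theorem cost_vand (v D k r L w : ℕ) (hv : 2 ≤ v)
    (hr : D + 1 ≤ r * (v * (v - 1) / 2)) (hL : v.factorial * L ≤ k)
    (hk : v.factorial * (D + 5) ≤ k) (hdL : r * (v * (v - 1) / 2) < L)
    (hw : L ^ ((r * (v * (v - 1) / 2)) * (r * (v * (v - 1) / 2))) < 2 ^ w)
    (hLL : 2 * ((r * (v * (v - 1) / 2) : ℕ) : ℝ) ^ 2 *
      ((w + 1) * Real.log (modu v.factorial D)) < L) :
    Cost k D (r * Real.log v.factorial + 2 * Real.log 2) := by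
  intro η hη
  have hN2 : 2 ≤ v.factorial := by
    calc 2 = Nat.factorial 2 := rfl
      _ ≤ v.factorial := Nat.factorial_le hv
  have hM2 : 2 ≤ modu v.factorial D := by
    have h1 := modu_ge v.factorial D (by omega)
    have h2 : 2 ^ 1 ≤ 2 ^ (D + 2) := Nat.pow_le_pow_right (by norm_num) (by omega)
    omega
  obtain ⟨R, hR1, hR2⟩ := Vale.Agent.P057.H829.hit_poly (r * (v * (v - 1) / 2))
    (modu v.factorial D) L w (by omega) hM2 hdL hw hLL
  have hMpos : 0 < modu v.factorial D ^ (w + 1) := pow_pos (by omega) _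
  set F : ℕ := v.factorial ^ r with hF
  have hFpos : 0 < F := pow_pos (by omega) _
  have hFR : (0 : ℝ) < F := by exact_mod_cast hFpos
  have hlt : Real.exp (-η) < 1 := Real.exp_lt_one_iff.2 (by linarith only [hη])
  obtain ⟨m0, hm0⟩ := eventually_div_le (((modu v.factorial D ^ (w + 1) : ℕ) : ℝ) + 2) (1 / (4 * F) * (1 - Real.exp (-η)))
    (mul_pos (by positivity) (by linarith only [hlt]))
  refine ⟨max m0 (modu v.factorial D + 1), fun p hp hpp => ?_⟩
  have hpM : modu v.factorial D < p := lt_of_lt_of_le (Nat.lt_succ_self _)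
    (le_trans (le_max_right _ _) hp)
  have hpm : m0 ≤ p := le_trans (le_max_left _ _) hp
  have hpR : (0 : ℝ) < p := by exact_mod_cast hpp.pos
  set h : ℕ := (p - 1) / (4 * F) with hh
  have hh1 : 4 * (F * h) < p := by
    have h1 : 4 * F * h ≤ p - 1 := by
      rw [hh]
      exact Nat.mul_div_le _ _
    have h2 : 4 * (F * h) = 4 * F * h := by ring
    have := hpp.pos
    omega
  have hcop : IsCoprime (p : ℤ) ((modu v.factorial D : ℕ) : ℤ) := by
    rw [Nat.isCoprime_iff_coprime]
    refine (Nat.Prime.coprime_iff_not_dvd hpp).2 (fun hdv => ?_)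
    have := Nat.le_of_dvd (by omega) hdv
    omega
  refine ⟨vblk h (modu v.factorial D ^ (w + 1)) R, block_vand v D k r L w p h hv hr hL hk hdL R hR2 hpp.pos hcop hh1,
    ?_, ?_⟩
  · intro u hu
    have h1 := (mem_vblk hu).1
    have h2 : (h : ℤ) ≤ p := by
      have h3 : h ≤ p := (Nat.div_le_self _ _).trans (Nat.sub_le _ _)
      exact_mod_cast h3
    linarith only [h1, h2]
  · have h1 := card_vblk h (modu v.factorial D ^ (w + 1)) hMpos R hR1
    have h2 : (p : ℝ) ≤ 4 * F * (h + 1) + 1 := by
      have h3 : p < 4 * F * (h + 1) + 1 := by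
        have := Nat.lt_mul_div_succ (p - 1) (b := 4 * F) (by positivity)
        rw [← hh] at this
        omega
      have h4 : (p : ℝ) < ((4 * F * (h + 1) + 1 : ℕ) : ℝ) := by exact_mod_cast h3
      push_cast at h4
      exact h4.le
    have h4 := hm0 p hpm
    rw [div_le_iff₀ hpR] at h4
    have h5 : Real.exp (-(r * Real.log v.factorial + 2 * Real.log 2 + η)) =
        1 / (4 * F) * Real.exp (-η) := by
      have h6 : Real.log (4 * F) = r * Real.log v.factorial + 2 * Real.log 2 := by
        rw [Real.log_mul (by norm_num) hFR.ne', hF, Nat.cast_pow, Real.log_pow]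
        have h7 : Real.log 4 = 2 * Real.log 2 := by
          rw [show (4 : ℝ) = 2 ^ 2 by norm_num, Real.log_pow]
          norm_num
        rw [h7]
        ring
      rw [neg_add, Real.exp_add, ← h6, Real.exp_neg, Real.exp_log (by positivity), one_div]
    rw [h5, le_div_iff₀ hpR]
    have h6 : 1 / (4 * (F : ℝ)) * p ≤ (h + 1) + 1 := by
      rw [one_div, inv_mul_le_iff₀ (by positivity)]
      have h7 : (1 : ℝ) ≤ 4 * F := by
        have : (1 : ℝ) ≤ F := by exact_mod_cast hFpos
        linarith only [this]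
      nlinarith only [h2, h7]
    have h8 : 1 / (4 * (F : ℝ)) * Real.exp (-η) * p =
        1 / (4 * F) * p - 1 / (4 * F) * (1 - Real.exp (-η)) * p := by ring
    rw [h8]
    linarith only [h1, h4, h6]

end Vale.Agent.P057.H562
end
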